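import Vale.Agent.P180.R2.H589.Sch.Tv
import Mathlib.LinearAlgebra.SpecialLinearGroup
import Mathlib.LinearAlgebra.Matrix.Transvection
import Mathlib.GroupTheory.IsPerfect
import Mathlib.FieldTheory.Finite.Basic

/-!
P180: `SL(n, K)`: generation by transvections, perfectness, the stabiliser of the first basis
vector.
-/

set_option linter.all false

namespace Vale.Agent.P180.R2.H589.Sch

open Subgroup Matrix
open scoped commutatorElement

variable {K : Type*} [Field K] {n : ℕ}

/-- `SL(n, K)` -/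
abbrev GS (n : ℕ) (K : Type*) [Field K] := Matrix.SpecialLinearGroup (Fin n) K

/-- transvection -/
abbrev tv {i j : Fin n} (hij : i ≠ j) (c : K) : GS n K :=
  Matrix.SpecialLinearGroup.transvection hij c

/-- diagonal matrices -/
def dg (D : Fin n → K) (h : ∏ i, D i = 1) : GS n K :=
  ⟨Matrix.diagonal D, by rw [Matrix.det_diagonal, h]⟩

theorem dg_ne {D : Fin n → K} (h : ∏ i, D i = 1) (i : Fin n) : D i ≠ 0 := by
  intro h0
  rw [Finset.prod_eq_zero (Finset.mem_univ i) h0] at h
  exact zero_ne_one h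

theorem dg_conj (D : Fin n → K) (h : ∏ i, D i = 1) {i j : Fin n} (hij : i ≠ j) (c : K) :
    dg D h * tv hij c * (dg D h)⁻¹ = tv hij (D i * (D j)⁻¹ * c) := by
  rw [mul_inv_eq_iff_eq_mul]
  apply Matrix.SpecialLinearGroup.ext
  intro a b
  have hj := dg_ne h j
  change (Matrix.diagonal D * ((1 : Matrix (Fin n) (Fin n) K) + Matrix.single i j c)) a b =
    (((1 : Matrix (Fin n) (Fin n) K) + Matrix.single i j (D i * (D j)⁻¹ * c)) *
      Matrix.diagonal D) a b
  rw [Matrix.diagonal_mul, Matrix.mul_diagonal, Matrix.add_apply, Matrix.add_apply]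
  by_cases h1 : i = a ∧ j = b
  · obtain ⟨rfl, rfl⟩ := h1
    rw [Matrix.single_apply_same, Matrix.single_apply_same, Matrix.one_apply_ne hij]
    field_simp
    ring
  · rw [Matrix.single_apply_of_ne _ _ _ _ _ h1, Matrix.single_apply_of_ne _ _ _ _ _ h1, add_zero]
    by_cases h2 : a = b
    · rw [h2]; ring
    · rw [Matrix.one_apply_ne h2]; ring

/-- The diagonal element with `a` in position `i` and `a⁻¹` in position `j`. -/
def D2 (i j : Fin n) (a : K) : Fin n → K := fun k => if k = i then a else if k = j then a⁻¹ else 1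

theorem D2_prod {i j : Fin n} (hij : i ≠ j) {a : K} (ha : a ≠ 0) : ∏ k, D2 i j a k = 1 := by
  have h1 : ∀ k, D2 i j a k = (if k = i then a else 1) * (if k = j then a⁻¹ else 1) := by
    intro k
    unfold D2
    by_cases h : k = i
    · rw [if_pos h, if_pos h, if_neg (by rw [h]; exact hij), mul_one]
    · rw [if_neg h, if_neg h, one_mul]
  simp_rw [h1]
  rw [Finset.prod_mul_distrib, Finset.prod_ite_eq', Finset.prod_ite_eq',
    if_pos (Finset.mem_univ _), if_pos (Finset.mem_univ _), mul_inv_cancel₀ ha]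

theorem tv_mul {i j : Fin n} (hij : i ≠ j) (a b : K) : tv hij a * tv hij b = tv hij (a + b) :=
  (SpecialLinearGroup.transvection_add hij a b).symm

theorem tv_inv {i j : Fin n} (hij : i ≠ j) (a : K) : (tv hij a)⁻¹ = tv hij (-a) :=
  SpecialLinearGroup.transvection_inv hij a

theorem tv_pow {i j : Fin n} (hij : i ≠ j) (a : K) (m : ℕ) : (tv hij a) ^ m = tv hij (m * a) := by
  induction m with
  | zero => rw [pow_zero, Nat.cast_zero, zero_mul]; exact
      (SpecialLinearGroup.transvection_coeff_zero hij).symm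
  | succ m ih => rw [pow_succ, ih, tv_mul]; push_cast; congr 1; ring

theorem tv_pel {p : ℕ} [CharP K p] {i j : Fin n} (hij : i ≠ j) (a : K) : Pel p (tv hij a) := by
  refine ⟨1, ?_⟩
  rw [pow_one, tv_pow, CharP.cast_eq_zero K p, zero_mul]
  exact SpecialLinearGroup.transvection_coeff_zero hij

/-- Action on basis vectors. -/
theorem tv_mulVec {i j : Fin n} (hij : i ≠ j) (c : K) (v : Fin n → K) :
    (tv hij c : Matrix (Fin n) (Fin n) K) *ᵥ v = v + Pi.single i (c * v j) := by
  change ((1 : Matrix (Fin n) (Fin n) K) + Matrix.single i j c) *ᵥ v = _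
  rw [Matrix.add_mulVec, Matrix.one_mulVec]
  congr 1
  funext k
  rw [Matrix.mulVec, dotProduct, Finset.sum_eq_single j]
  · by_cases hk : k = i
    · rw [hk, Pi.single_eq_same, Matrix.single_apply_same]
    · rw [Pi.single_eq_of_ne hk, Matrix.single_apply_of_ne _ _ _ _ _ (fun h => hk h.1.symm),
        zero_mul]
  · intro b _ hb
    rw [Matrix.single_apply_of_ne _ _ _ _ _ (fun h => hb h.2.symm), zero_mul]
  · intro h
    exact absurd (Finset.mem_univ j) h

theorem dg_mulVec (D : Fin n → K) (h : ∏ i, D i = 1) (v : Fin n → K) :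
    (dg D h : Matrix (Fin n) (Fin n) K) *ᵥ v = fun k => D k * v k := by
  change Matrix.diagonal D *ᵥ v = _
  funext k
  rw [Matrix.mulVec_diagonal]

theorem ext_mulVec {g h : GS n K} (H : ∀ v : Fin n → K, (g : Matrix (Fin n) (Fin n) K) *ᵥ v =
    (h : Matrix (Fin n) (Fin n) K) *ᵥ v) : g = h := by
  apply Subtype.ext
  apply Matrix.ext_of_mulVec_single
  intro i
  exact H _

theorem coe_mul_mulVec (g h : GS n K) (v : Fin n → K) :
    ((g * h : GS n K) : Matrix (Fin n) (Fin n) K) *ᵥ v =
      (g : Matrix (Fin n) (Fin n) K) *ᵥ ((h : Matrix (Fin n) (Fin n) K) *ᵥ v) := by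
  change ((g : Matrix (Fin n) (Fin n) K) * (h : Matrix (Fin n) (Fin n) K)) *ᵥ v = _
  rw [Matrix.mulVec_mulVec]

theorem D2_eq {i j : Fin n} (hij : i ≠ j) {a : K} (ha : a ≠ 0) :
    dg (D2 i j a) (D2_prod hij ha) = tv hij a * tv hij.symm (-a⁻¹) * tv hij a * tv hij (-1) *
      tv hij.symm 1 * tv hij (-1) := by
  apply ext_mulVec
  intro v
  simp only [coe_mul_mulVec, tv_mulVec, dg_mulVec]
  funext k
  simp only [Pi.add_apply, D2]
  by_cases hi : k = i
  · subst hi
    simp only [if_true, Pi.single_eq_same, Pi.single_eq_of_ne hij, Pi.single_eq_of_ne hij.symm]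
    field_simp
    ring
  · by_cases hj : k = j
    · subst hj
      simp only [if_true, if_neg hij.symm, Pi.single_eq_same, Pi.single_eq_of_ne hij,
        Pi.single_eq_of_ne hij.symm]
      field_simp
      ring
    · simp only [if_neg hi, if_neg hj, Pi.single_eq_of_ne hi, Pi.single_eq_of_ne hj]
      ring

/-- `SL(n, K)` is generated by the transvections. -/
theorem tv_induction (hn : 1 ≤ n) (P : GS n K → Prop)
    (htv : ∀ (i j : Fin n) (hij : i ≠ j) (c : K), P (tv hij c)) (hone : P 1)
    (hmul : ∀ A B, P A → P B → P (A * B)) (A : GS n K) : P A := by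
  rcases Nat.lt_or_ge 1 n with h | h
  · have hnt : Nontrivial (Fin n) := Fin.nontrivial_iff_two_le.mpr h
    refine Matrix.SpecialLinearGroup.diagonal_transvection_induction' P A
      (fun i j hij c hc => ?_) htv hmul
    have h1 : SpecialLinearGroup.diag2n hij c hc = dg (D2 i j c) (D2_prod hij hc) := rfl
    rw [h1, D2_eq hij hc]
    exact hmul _ _ (hmul _ _ (hmul _ _ (hmul _ _ (hmul _ _ (htv _ _ _ _) (htv _ _ _ _))
      (htv _ _ _ _)) (htv _ _ _ _)) (htv _ _ _ _)) (htv _ _ _ _)
  · have h2 : n = 1 := le_antisymm h hn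
    subst h2
    have h3 : A = 1 := by
      apply Matrix.SpecialLinearGroup.ext
      intro i j
      have hd := A.2
      rw [Matrix.det_fin_one] at hd
      have hi : i = 0 := Subsingleton.elim _ _
      have hj : j = 0 := Subsingleton.elim _ _
      rw [hi, hj]
      exact hd
    rw [h3]
    exact hone

theorem tv_comm_dg {i j : Fin n} (hij : i ≠ j) {a : K} (ha : a ≠ 0) (c : K) :
    ⁅dg (D2 i j a) (D2_prod hij ha), tv hij c⁆ = tv hij ((a ^ 2 - 1) * c) := by
  rw [commutatorElement_def, dg_conj, tv_inv, tv_mul]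
  congr 1
  have h1 : D2 i j a i = a := if_pos rfl
  have h2 : D2 i j a j = a⁻¹ := by
    unfold D2
    rw [if_neg hij.symm, if_pos rfl]
  rw [h1, h2, inv_inv]
  ring

/-- `SL(n, K)` is perfect. -/
theorem perfect_sl (hn : 1 ≤ n) {a : K} (ha : a ≠ 0) (ha2 : a ^ 2 ≠ 1) :
    commutator (GS n K) = ⊤ := by
  rw [eq_top_iff]
  intro A _
  refine tv_induction hn (fun A => A ∈ commutator (GS n K)) ?_ (Subgroup.one_mem _)
    (fun _ _ => Subgroup.mul_mem _) A
  intro i j hij c
  have h1 : a ^ 2 - 1 ≠ 0 := sub_ne_zero.mpr ha2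
  have h2 := tv_comm_dg hij ha ((a ^ 2 - 1)⁻¹ * c)
  rw [← mul_assoc, mul_inv_cancel₀ h1, one_mul] at h2
  rw [← h2, commutator_def]
  exact commutator_mem_commutator (mem_top _) (mem_top _)

/-- the natural action -/
abbrev nat (n : ℕ) (K : Type*) [Field K] : GS n K →* ((Fin n → K) ≃ₗ[K] (Fin n → K)) :=
  Matrix.SpecialLinearGroup.toLin'

theorem nat_apply (g : GS n K) (v : Fin n → K) :
    nat n K g v = (g : Matrix (Fin n) (Fin n) K) *ᵥ v := rfl

theorem nat_injective : Function.Injective (nat n K) := by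
  intro g h hgh
  apply ext_mulVec
  intro v
  rw [← nat_apply, ← nat_apply, hgh]

/-- Every transvection comes from `SL(n, K)`. -/
theorem nat_tv {e : (Fin n → K) ≃ₗ[K] (Fin n → K)} {φ : Module.Dual K (Fin n → K)}
    {a : Fin n → K} (h : IsTv e φ a) : ∃ g : GS n K, nat n K g = e := by
  have h1 : e = LinearEquiv.transvection h.1 := by
    apply LinearEquiv.ext
    intro x
    rw [h.2]
    rfl
  have h2 : LinearEquiv.det e = 1 := by
    rw [h1]
    exact LinearEquiv.transvection.det_eq_one h.1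
  refine ⟨Matrix.SpecialLinearGroup.toLin'_equiv.symm ⟨e, h2⟩, ?_⟩
  have h3 := Matrix.SpecialLinearGroup.toLin'_equiv.apply_symm_apply
    (⟨e, h2⟩ : _root_.SpecialLinearGroup K (Fin n → K))
  exact congrArg Subtype.val h3

/-- the first basis vector -/
def o1 (n : ℕ) (K : Type*) [Field K] : Fin (n + 1) → K := Pi.single 0 1

theorem o1_ne : o1 n K ≠ 0 := by
  intro h
  have := congrFun h 0
  rw [o1, Pi.single_eq_same] at this
  exact one_ne_zero this

theorem o1_zero : o1 n K 0 = 1 := Pi.single_eq_same _ _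

theorem o1_succ (i : Fin n) : o1 n K i.succ = 0 := Pi.single_eq_of_ne (Fin.succ_ne_zero i) _

/-- the stabiliser of the first basis vector -/
def St (n : ℕ) (K : Type*) [Field K] : Subgroup (GS (n + 1) K) where
  carrier := {g | nat (n + 1) K g (o1 n K) = o1 n K}
  one_mem' := by
    change nat (n + 1) K 1 (o1 n K) = o1 n K
    rw [map_one]; rfl
  mul_mem' := by
    intro g h hg hh
    change nat (n + 1) K (g * h) (o1 n K) = o1 n K
    have hg : nat (n + 1) K g (o1 n K) = o1 n K := hg
    have hh : nat (n + 1) K h (o1 n K) = o1 n K := hh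
    rw [map_mul, LinearEquiv.mul_apply, hh, hg]
  inv_mem' := by
    intro g hg
    change nat (n + 1) K g⁻¹ (o1 n K) = o1 n K
    have hg : nat (n + 1) K g (o1 n K) = o1 n K := hg
    rw [map_inv]
    nth_rewrite 1 [← hg]
    exact (nat (n + 1) K g).symm_apply_apply _

theorem mem_St {g : GS (n + 1) K} : g ∈ St n K ↔ nat (n + 1) K g (o1 n K) = o1 n K := Iff.rfl

theorem col0 {g : GS (n + 1) K} (h : g ∈ St n K) (i : Fin (n + 1)) : g i 0 = o1 n K i := by
  have h1 := congrFun (mem_St.mp h) i
  rw [nat_apply, o1, Matrix.mulVec_single_one] at h1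
  exact h1

theorem col0_succ {g : GS (n + 1) K} (h : g ∈ St n K) (i : Fin n) : g i.succ 0 = 0 := by
  rw [col0 h, o1_succ]

theorem blk_det {g : GS (n + 1) K} (h : g ∈ St n K) :
    ((g : Matrix (Fin (n + 1)) (Fin (n + 1)) K).submatrix Fin.succ Fin.succ).det = 1 := by
  have h1 := g.2
  rw [Matrix.det_succ_column_zero, Fin.sum_univ_succ, Finset.sum_eq_zero] at h1
  · have h2 := col0 h 0
    rw [o1_zero] at h2
    have h3 : (g : Matrix (Fin (n + 1)) (Fin (n + 1)) K) 0 0 = 1 := h2
    rw [h3, Fin.val_zero, pow_zero, one_mul, one_mul, add_zero] at h1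
    exact h1
  · intro i _
    have h3 : (g : Matrix (Fin (n + 1)) (Fin (n + 1)) K) i.succ 0 = 0 := col0_succ h i
    rw [h3, mul_zero, zero_mul]

/-- the block -/
def blk (n : ℕ) (K : Type*) [Field K] : St n K →* GS n K where
  toFun g := ⟨_, blk_det g.2⟩
  map_one' := by
    apply Subtype.ext
    exact Matrix.submatrix_one Fin.succ (Fin.succ_injective n)
  map_mul' := by
    intro g h
    apply Subtype.ext
    ext i j
    change (((g : GS (n + 1) K) : Matrix (Fin (n + 1)) (Fin (n + 1)) K) *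
      ((h : GS (n + 1) K) : Matrix (Fin (n + 1)) (Fin (n + 1)) K)) i.succ j.succ = _
    rw [Matrix.mul_apply, Fin.sum_univ_succ]
    have h3 : ((g : GS (n + 1) K) : Matrix (Fin (n + 1)) (Fin (n + 1)) K) i.succ 0 = 0 :=
      col0_succ g.2 i
    rw [h3, zero_mul, zero_add]
    rfl

theorem blk_apply (g : St n K) (i j : Fin n) :
    (blk n K g) i j = (g : GS (n + 1) K) i.succ j.succ := rfl

theorem tv_mem_St {i j : Fin n} (hij : i ≠ j) (c : K) :
    tv ((Fin.succ_injective n).ne hij) c ∈ St n K := by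
  rw [mem_St, nat_apply, tv_mulVec, o1_succ, mul_zero, Pi.single_zero, add_zero]

theorem blk_tv {i j : Fin n} (hij : i ≠ j) (c : K) :
    blk n K ⟨tv ((Fin.succ_injective n).ne hij) c, tv_mem_St hij c⟩ = tv hij c := by
  apply Matrix.SpecialLinearGroup.ext
  intro a b
  rw [blk_apply]
  change ((1 : Matrix (Fin (n + 1)) (Fin (n + 1)) K) + Matrix.single i.succ j.succ c) a.succ b.succ =
    ((1 : Matrix (Fin n) (Fin n) K) + Matrix.single i j c) a b
  rw [Matrix.add_apply, Matrix.add_apply, Matrix.one_apply, Matrix.one_apply]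
  congr 1
  · simp only [Fin.succ_inj]
  · by_cases h : i = a ∧ j = b
    · obtain ⟨rfl, rfl⟩ := h
      rw [Matrix.single_apply_same, Matrix.single_apply_same]
    · rw [Matrix.single_apply_of_ne _ _ _ _ _ h, Matrix.single_apply_of_ne]
      intro h'
      exact h ⟨Fin.succ_injective n h'.1, Fin.succ_injective n h'.2⟩

theorem tv_of_blk {g : St n K} (h : blk n K g = 1) :
    ∃ φ, IsTv (nat (n + 1) K (g : GS (n + 1) K)) φ (o1 n K) := by
  let φ : Module.Dual K (Fin (n + 1) → K) :=
    ∑ j : Fin n, (g : GS (n + 1) K) 0 j.succ • LinearMap.proj j.succ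
  have hφ : ∀ x, φ x = ∑ j : Fin n, (g : GS (n + 1) K) 0 j.succ * x j.succ := by
    intro x
    simp only [φ, LinearMap.sum_apply, LinearMap.smul_apply, LinearMap.proj_apply, smul_eq_mul]
  refine ⟨φ, ?_, fun x => ?_⟩
  · rw [hφ]
    refine Finset.sum_eq_zero fun j _ => ?_
    rw [o1_succ, mul_zero]
  · funext i
    rw [nat_apply, Matrix.mulVec, dotProduct, Fin.sum_univ_succ, Pi.add_apply, Pi.smul_apply, hφ]
    refine Fin.cases ?_ (fun i => ?_) i
    · have h1 := col0 g.2 0
      rw [o1_zero] at h1 ⊢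
      have h2 : ((g : GS (n + 1) K) : Matrix (Fin (n + 1)) (Fin (n + 1)) K) 0 0 = 1 := h1
      rw [h2, one_mul, smul_eq_mul, mul_one]
    · have h2 : ((g : GS (n + 1) K) : Matrix (Fin (n + 1)) (Fin (n + 1)) K) i.succ 0 = 0 :=
        col0_succ g.2 i
      rw [h2, zero_mul, zero_add, o1_succ, smul_zero, add_zero, Finset.sum_eq_single i]
      · have h3 : (blk n K g) i i = 1 := by
          rw [h]; exact Matrix.one_apply_eq i
        rw [blk_apply] at h3
        have h4 : ((g : GS (n + 1) K) : Matrix (Fin (n + 1)) (Fin (n + 1)) K) i.succ i.succ = 1 :=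
          h3
        rw [h4, one_mul]
      · intro j _ hj
        have h3 : (blk n K g) i j = 0 := by
          rw [h]; exact Matrix.one_apply_ne hj.symm
        rw [blk_apply] at h3
        have h4 : ((g : GS (n + 1) K) : Matrix (Fin (n + 1)) (Fin (n + 1)) K) i.succ j.succ = 0 :=
          h3
        rw [h4, zero_mul]
      · intro h; exact absurd (Finset.mem_univ i) h

theorem blk_of_tv {g : St n K} {φ : Module.Dual K (Fin (n + 1) → K)}
    (h : IsTv (nat (n + 1) K (g : GS (n + 1) K)) φ (o1 n K)) : blk n K g = 1 := by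
  apply Matrix.SpecialLinearGroup.ext
  intro i j
  rw [blk_apply]
  have h1 := congrFun (h.2 (Pi.single j.succ 1)) i.succ
  rw [nat_apply, Matrix.mulVec_single_one, Pi.add_apply, Pi.smul_apply, o1_succ, smul_zero,
    add_zero] at h1
  have h2 : (g : GS (n + 1) K) i.succ j.succ = (Pi.single j.succ 1 : Fin (n + 1) → K) i.succ := h1
  rw [h2]
  change _ = (1 : Matrix (Fin n) (Fin n) K) i j
  rw [Matrix.one_apply, Pi.single_apply]
  simp only [Fin.succ_inj]

end Vale.Agent.P180.R2.H589.Sch
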