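import Vale.Agent.P180.R2.H259.Schur.Form
import Mathlib.GroupTheory.Subgroup.Center
import Mathlib.GroupTheory.Commutator.Basic

/-!
P180: commutator pairings in central extensions.
-/

set_option linter.all false

namespace Vale.Agent.P180.R2.H589.Sch

open Subgroup
open scoped commutatorElement

variable {E G : Type*} [Group E] [Group G] {f : E →* G}

theorem comm_congr (hk : f.ker ≤ center E) {a a' b b' : E} (ha : f a = f a') (hb : f b = f b') :
    ⁅a, b⁆ = ⁅a', b'⁆ := by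
  have h1 : ∀ {a a' : E}, f a = f a' → ∃ k ∈ center E, a' = a * k := by
    intro a a' h
    refine ⟨a⁻¹ * a', hk ?_, by group⟩
    rw [MonoidHom.mem_ker, map_mul, map_inv, h, inv_mul_cancel]
  obtain ⟨k, hk, rfl⟩ := h1 ha
  obtain ⟨l, hl, rfl⟩ := h1 hb
  have hk' := mem_center_iff.mp hk
  have hl' := mem_center_iff.mp hl
  rw [commutatorElement_def, commutatorElement_def]
  symm
  calc a * k * (b * l) * (a * k)⁻¹ * (b * l)⁻¹ = a * (k * b) * l * k⁻¹ * a⁻¹ * l⁻¹ * b⁻¹ := by group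
    _ = a * (b * k) * l * k⁻¹ * a⁻¹ * l⁻¹ * b⁻¹ := by rw [hk' b]
    _ = a * b * (k * l) * k⁻¹ * a⁻¹ * l⁻¹ * b⁻¹ := by group
    _ = a * b * (l * k) * k⁻¹ * a⁻¹ * l⁻¹ * b⁻¹ := by rw [hk' l]
    _ = a * b * (l * a⁻¹) * l⁻¹ * b⁻¹ := by group
    _ = a * b * (a⁻¹ * l) * l⁻¹ * b⁻¹ := by rw [hl' a⁻¹]
    _ = _ := by group

theorem comm_mul_left_of {a a' b : E} (h : ⁅a', b⁆ ∈ center E) : ⁅a * a', b⁆ = ⁅a, b⁆ * ⁅a', b⁆ := by
  have h1 := mem_center_iff.mp h
  have h2 := h1 (a * b * a⁻¹ * b⁻¹)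
  have h3 := h1 a
  rw [commutatorElement_def] at h1 h2 h3
  rw [commutatorElement_def, commutatorElement_def, commutatorElement_def, h2]
  calc a * a' * b * (a * a')⁻¹ * b⁻¹ = a * (a' * b * a'⁻¹ * b⁻¹) * (b * a⁻¹ * b⁻¹) := by group
    _ = (a' * b * a'⁻¹ * b⁻¹) * a * (b * a⁻¹ * b⁻¹) := by rw [h3]
    _ = _ := by group

theorem comm_mul_right_of {a b b' : E} (h : ⁅a, b'⁆ ∈ center E) : ⁅a, b * b'⁆ = ⁅a, b⁆ * ⁅a, b'⁆ := by
  have h1 := mem_center_iff.mp h
  have h3 := h1 b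
  rw [commutatorElement_def] at h3
  rw [commutatorElement_def, commutatorElement_def, commutatorElement_def]
  calc a * (b * b') * a⁻¹ * (b * b')⁻¹ = a * b * a⁻¹ * (a * b' * a⁻¹ * b'⁻¹) * b⁻¹ := by group
    _ = a * b * a⁻¹ * b⁻¹ * (b * (a * b' * a⁻¹ * b'⁻¹)) * b⁻¹ := by group
    _ = a * b * a⁻¹ * b⁻¹ * ((a * b' * a⁻¹ * b'⁻¹) * b) * b⁻¹ := by rw [h3]
    _ = _ := by group

theorem comm_conj_of {a b : E} (h : ⁅a, b⁆ ∈ center E) (g : E) :
    ⁅g * a * g⁻¹, g * b * g⁻¹⁆ = ⁅a, b⁆ := by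
  have h3 := mem_center_iff.mp h g
  rw [commutatorElement_def] at h3
  rw [commutatorElement_def, commutatorElement_def]
  calc g * a * g⁻¹ * (g * b * g⁻¹) * (g * a * g⁻¹)⁻¹ * (g * b * g⁻¹)⁻¹
      = g * (a * b * a⁻¹ * b⁻¹) * g⁻¹ := by group
    _ = _ := by rw [h3, mul_inv_cancel_right]

variable {K : Type*} [Field K]

/-- The commutator pairing of two commuting one-parameter subgroups. -/
theorem exists_pairing (hf : Function.Surjective f) (hk : f.ker ≤ center E) {ρ ρ' : K → G}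
    (hρ : ∀ s t, ρ (s + t) = ρ s * ρ t) (hρ' : ∀ s t, ρ' (s + t) = ρ' s * ρ' t)
    (hcomm : ∀ s t, ρ s * ρ' t = ρ' t * ρ s) :
    ∃ c : K → K → center E, (∀ s s' t, c (s + s') t = c s t * c s' t) ∧
      (∀ s t t', c s (t + t') = c s t * c s t') ∧
      (∀ s t a b, f a = ρ s → f b = ρ' t → ((c s t : center E) : E) = ⁅a, b⁆) := by
  choose σ hσ using hf
  have hmem : ∀ s t : K, ⁅σ (ρ s), σ (ρ' t)⁆ ∈ center E := by
    intro t u
    apply hk
    rw [MonoidHom.mem_ker, map_commutatorElement, hσ, hσ, commutatorElement_eq_one_iff_mul_comm]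
    exact hcomm _ _
  let c : K → K → center E := fun t u => ⟨⁅σ (ρ t), σ (ρ' u)⁆, hmem t u⟩
  have hc : ∀ s t a b, f a = ρ s → f b = ρ' t → ((c s t : center E) : E) = ⁅a, b⁆ := by
    intro s t a b ha hb
    exact comm_congr hk (by rw [hσ, ha]) (by rw [hσ, hb])
  refine ⟨c, ?_, ?_, hc⟩
  · intro s s' t
    apply Subtype.ext
    rw [Subgroup.coe_mul, hc (s + s') t (σ (ρ s) * σ (ρ s')) (σ (ρ' t)) (by
      rw [map_mul, hσ, hσ, hρ]) (hσ _)]
    exact comm_mul_left_of (hmem s' t)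
  · intro s t t'
    apply Subtype.ext
    rw [Subgroup.coe_mul, hc s (t + t') (σ (ρ s)) (σ (ρ' t) * σ (ρ' t')) (hσ _) (by
      rw [map_mul, hσ, hσ, hρ'])]
    exact comm_mul_right_of (hmem s t')

theorem pairing_one_of_scale {c : K → K → center E}
    (h1 : ∀ s s' t, c (s + s') t = c s t * c s' t) {lam : K} (hlam : lam ≠ 1)
    (h : ∀ s t, c (lam * s) t = c s t) (s t : K) : c s t = 1 := by
  have h2 : lam - 1 ≠ 0 := sub_ne_zero.mpr hlam
  have h3 := h ((lam - 1)⁻¹ * s) t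
  have h4 : lam * ((lam - 1)⁻¹ * s) = s + (lam - 1)⁻¹ * s := by
    field_simp
    ring
  rw [h4, h1] at h3
  exact mul_eq_right.mp h3

/-- Lifts of two root subgroups commute if an element of the torus scales the first one and fixes
the second one. -/
theorem comm_of_scale (hf : Function.Surjective f) (hk : f.ker ≤ center E) {ρ ρ' : K → G}
    (hρ : ∀ s t, ρ (s + t) = ρ s * ρ t) (hρ' : ∀ s t, ρ' (s + t) = ρ' s * ρ' t)
    (hcomm : ∀ s t, ρ s * ρ' t = ρ' t * ρ s) {g : E} {lam : K} (hlam : lam ≠ 1)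
    (hg : ∀ s, f g * ρ s * (f g)⁻¹ = ρ (lam * s)) (hg' : ∀ t, f g * ρ' t * (f g)⁻¹ = ρ' t)
    {s t : K} {a b : E} (ha : f a = ρ s) (hb : f b = ρ' t) : a * b = b * a := by
  obtain ⟨c, h1, h2, h3⟩ := exists_pairing hf hk hρ hρ' hcomm
  have h4 := pairing_one_of_scale h1 hlam (fun s t => by
    obtain ⟨x, hx⟩ := hf (ρ s)
    obtain ⟨y, hy⟩ := hf (ρ' t)
    apply Subtype.ext
    rw [h3 (lam * s) t (g * x * g⁻¹) (g * y * g⁻¹) (by rw [map_mul, map_mul, map_inv, hx, hg])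
      (by rw [map_mul, map_mul, map_inv, hy, hg']), h3 s t x y hx hy]
    apply comm_conj_of
    rw [← h3 s t x y hx hy]
    exact (c s t).2) s t
  have h5 := h3 s t a b ha hb
  rw [h4] at h5
  exact commutatorElement_eq_one_iff_mul_comm.mp h5.symm

/-- Lifts of elements of one root subgroup commute. -/
theorem comm_of_squares [Finite K] (hK : 9 < Nat.card K) (hf : Function.Surjective f)
    (hk : f.ker ≤ center E) {ρ : K → G} (hρ : ∀ s t, ρ (s + t) = ρ s * ρ t)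
    (hg : ∀ m : K, m ≠ 0 → ∃ g : G, ∀ s, g * ρ s * g⁻¹ = ρ (m ^ 2 * s))
    {s t : K} {a b : E} (ha : f a = ρ s) (hb : f b = ρ t) : a * b = b * a := by
  have hcomm : ∀ s t, ρ s * ρ t = ρ t * ρ s := by
    intro s t
    rw [← hρ, ← hρ, add_comm]
  obtain ⟨c, h1, h2, h3⟩ := exists_pairing hf hk hρ hρ hcomm
  letI : CommGroup (center E) := { (inferInstance : Group (center E)) with
    mul_comm := fun a b => Subtype.ext (mem_center_iff.mp b.2 a) }
  have h4 := H259.Schur.form_trivial hK c h1 h2 (fun m hm s t => by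
    obtain ⟨g, hg⟩ := hg m hm
    obtain ⟨γ, rfl⟩ := hf g
    obtain ⟨x, hx⟩ := hf (ρ s)
    obtain ⟨y, hy⟩ := hf (ρ t)
    apply Subtype.ext
    rw [h3 (m ^ 2 * s) (m ^ 2 * t) (γ * x * γ⁻¹) (γ * y * γ⁻¹)
      (by rw [map_mul, map_mul, map_inv, hx, hg])
      (by rw [map_mul, map_mul, map_inv, hy, hg]), h3 s t x y hx hy]
    apply comm_conj_of
    rw [← h3 s t x y hx hy]
    exact (c s t).2) (fun t => by
    obtain ⟨x, hx⟩ := hf (ρ t)
    apply Subtype.ext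
    rw [h3 t t x x hx hx, commutatorElement_self]
    rfl) s t
  have h5 := h3 s t a b ha hb
  rw [h4] at h5
  exact commutatorElement_eq_one_iff_mul_comm.mp h5.symm

end Vale.Agent.P180.R2.H589.Sch
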