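import Vale.Agent.P180.R2.H589.Sch.Blk

/-!
P180: the unipotent radical of the stabiliser of the first basis vector in `SL(n + 1, K)`.
-/

set_option linter.all false

namespace Vale.Agent.P180.R2.H589.Sch

open Subgroup Module

variable {K : Type*} [Field K] {n : ℕ}

/-- the unipotent radical -/
def UU (n : ℕ) (K : Type*) [Field K] : Subgroup (GS (n + 1) K) :=
  (XC (K := K) (o1 n K)).comap (nat (n + 1) K)

theorem mem_UU {g : GS (n + 1) K} :
    g ∈ UU n K ↔ ∃ φ, IsTv (nat (n + 1) K g) φ (o1 n K) := Iff.rfl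

theorem UU_le : UU n K ≤ St n K := by
  rintro g ⟨φ, h⟩
  rw [mem_St, h.2, h.1, zero_smul, add_zero]

theorem UU_iff {g : GS (n + 1) K} (h : g ∈ St n K) : g ∈ UU n K ↔ blk n K ⟨g, h⟩ = 1 :=
  ⟨fun ⟨_, hφ⟩ => blk_of_tv hφ, fun hb => tv_of_blk hb⟩

theorem rc_eq {g : GS (n + 1) K} {φ : Dual K (Fin (n + 1) → K)}
    (h : IsTv (nat (n + 1) K g) φ (o1 n K)) (j : Fin n) :
    g 0 j.succ = φ (Pi.single j.succ 1) := by
  have h1 := congrFun (h.2 (Pi.single j.succ 1)) 0
  rw [nat_apply, Matrix.mulVec_single_one, Pi.add_apply, Pi.smul_apply, o1_zero, smul_eq_mul,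
    mul_one, Pi.single_eq_of_ne (Fin.succ_ne_zero j).symm, zero_add] at h1
  exact h1

theorem rc_mul {g h : GS (n + 1) K} (hg : g ∈ UU n K) (hh : h ∈ UU n K) (j : Fin n) :
    (g * h) 0 j.succ = g 0 j.succ + h 0 j.succ := by
  obtain ⟨φ, hφ⟩ := hg
  obtain ⟨ψ, hψ⟩ := hh
  have h1 : IsTv (nat (n + 1) K (g * h)) (φ + ψ) (o1 n K) := by
    rw [map_mul]
    exact hφ.mul_c hψ
  rw [rc_eq h1, rc_eq hφ, rc_eq hψ, LinearMap.add_apply]

theorem rc_one (j : Fin n) : (1 : GS (n + 1) K) 0 j.succ = 0 := by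
  change (1 : Matrix (Fin (n + 1)) (Fin (n + 1)) K) 0 j.succ = 0
  exact Matrix.one_apply_ne (Fin.succ_ne_zero j).symm

theorem rc_inv {g : GS (n + 1) K} (hg : g ∈ UU n K) (j : Fin n) :
    (g⁻¹) 0 j.succ = - g 0 j.succ := by
  have h1 := rc_mul hg (Subgroup.inv_mem _ hg) j
  rw [mul_inv_cancel, rc_one] at h1
  exact (neg_eq_of_add_eq_zero_right h1.symm).symm

theorem rc_ext {g h : GS (n + 1) K} (hg : g ∈ UU n K) (hh : h ∈ UU n K)
    (H : ∀ j : Fin n, g 0 j.succ = h 0 j.succ) : g = h := by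
  obtain ⟨φ, hφ⟩ := hg
  obtain ⟨ψ, hψ⟩ := hh
  have h1 : φ = ψ := by
    apply LinearMap.pi_ext'
    intro i
    apply LinearMap.ext_ring
    change φ (Pi.single i 1) = ψ (Pi.single i 1)
    refine Fin.cases ?_ (fun j => ?_) i
    · exact hφ.1.trans hψ.1.symm
    · rw [← rc_eq hφ, ← rc_eq hψ, H]
  apply nat_injective
  apply LinearEquiv.ext
  intro x
  rw [hφ.2, hψ.2, h1]

theorem rc_dg {g g' : GS (n + 1) K} {D : Fin (n + 1) → K} (hD : ∏ i, D i = 1)
    (h : dg D hD * g = g' * dg D hD) (j : Fin n) :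
    g' 0 j.succ = D 0 * (D j.succ)⁻¹ * g 0 j.succ := by
  have h1 : (Matrix.diagonal D * (g : Matrix (Fin (n + 1)) (Fin (n + 1)) K)) 0 j.succ =
      ((g' : Matrix (Fin (n + 1)) (Fin (n + 1)) K) * Matrix.diagonal D) 0 j.succ :=
    congrFun (congrFun (congrArg Subtype.val h) 0) j.succ
  rw [Matrix.diagonal_mul, Matrix.mul_diagonal] at h1
  have h2 := dg_ne hD j.succ
  have h3 : (g' : Matrix (Fin (n + 1)) (Fin (n + 1)) K) 0 j.succ = D 0 * (D j.succ)⁻¹ *
      (g : Matrix (Fin (n + 1)) (Fin (n + 1)) K) 0 j.succ := by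
    rw [mul_assoc, mul_comm (D j.succ)⁻¹, ← mul_assoc, h1, mul_assoc, mul_inv_cancel₀ h2, mul_one]
  exact h3

theorem UU_conj {g h : GS (n + 1) K} (hg : g ∈ St n K) (hh : h ∈ UU n K) :
    g * h * g⁻¹ ∈ UU n K := by
  obtain ⟨φ, hφ⟩ := hh
  have h1 := hφ.conj (nat (n + 1) K g)
  rw [mem_St.mp hg] at h1
  rw [mem_UU, map_mul, map_mul, map_inv]
  exact ⟨_, h1⟩

theorem UU_dg {h : GS (n + 1) K} {D : Fin (n + 1) → K} (hD : ∏ i, D i = 1) (hh : h ∈ UU n K) :
    dg D hD * h * (dg D hD)⁻¹ ∈ UU n K := by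
  obtain ⟨φ, hφ⟩ := hh
  have h1 := hφ.conj (nat (n + 1) K (dg D hD))
  have h2 : nat (n + 1) K (dg D hD) (o1 n K) = D 0 • o1 n K := by
    rw [nat_apply, dg_mulVec]
    funext k
    rw [Pi.smul_apply, smul_eq_mul]
    refine Fin.cases rfl (fun j => ?_) k
    rw [o1_succ, mul_zero, mul_zero]
  rw [h2] at h1
  rw [mem_UU, map_mul, map_mul, map_inv]
  refine ⟨(D 0) • (φ ∘ₗ ((nat (n + 1) K (dg D hD))⁻¹ :
    (Fin (n + 1) → K) ≃ₗ[K] (Fin (n + 1) → K)).toLinearMap), ?_, fun x => ?_⟩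
  · have h3 := h1.1
    rw [map_smul, smul_eq_mul] at h3
    rw [LinearMap.smul_apply, (mul_eq_zero.mp h3).resolve_left (dg_ne hD 0), smul_zero]
  · rw [h1.2, LinearMap.smul_apply, smul_eq_mul, smul_smul, mul_comm]

/-- root elements -/
def rt (j : Fin n) (s : K) : GS (n + 1) K := tv (Fin.succ_ne_zero j).symm s

theorem rt_add (j : Fin n) (s t : K) : (rt j (s + t) : GS (n + 1) K) = rt j s * rt j t :=
  (tv_mul (Fin.succ_ne_zero j).symm s t).symm

theorem rt_mem (j : Fin n) (s : K) : rt j s ∈ UU n K := by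
  refine ⟨s • LinearMap.proj j.succ, ?_, fun x => ?_⟩
  · rw [LinearMap.smul_apply, LinearMap.proj_apply, o1_succ, smul_zero]
  · rw [rt, nat_apply, tv_mulVec, LinearMap.smul_apply, LinearMap.proj_apply, smul_eq_mul]
    congr 1
    funext i
    refine Fin.cases ?_ (fun i => ?_) i
    · rw [Pi.single_eq_same, Pi.smul_apply, o1_zero, smul_eq_mul, mul_one]
    · rw [Pi.single_eq_of_ne (Fin.succ_ne_zero i), Pi.smul_apply, o1_succ, smul_zero]

theorem rc_rt (j : Fin n) (s : K) (k : Fin n) :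
    (rt j s : GS (n + 1) K) 0 k.succ = if j = k then s else 0 := by
  change ((1 : Matrix (Fin (n + 1)) (Fin (n + 1)) K) + Matrix.single 0 j.succ s :
    Matrix (Fin (n + 1)) (Fin (n + 1)) K) 0 k.succ =
    (if j = k then s else 0)
  rw [Matrix.add_apply, Matrix.one_apply_ne (Fin.succ_ne_zero k).symm, zero_add]
  by_cases h : j = k
  · rw [if_pos h, h, Matrix.single_apply_same]
  · rw [if_neg h, Matrix.single_apply_of_ne]
    intro h'
    exact h (Fin.succ_injective n h'.2)

theorem rt_dg {D : Fin (n + 1) → K} (hD : ∏ i, D i = 1) (j : Fin n) (s : K) :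
    dg D hD * rt j s * (dg D hD)⁻¹ = rt j (D 0 * (D j.succ)⁻¹ * s) :=
  dg_conj D hD (Fin.succ_ne_zero j).symm s

theorem rt_comm (i j : Fin n) (s t : K) :
    (rt i s : GS (n + 1) K) * rt j t = rt j t * rt i s := by
  apply rc_ext (Subgroup.mul_mem _ (rt_mem i s) (rt_mem j t))
    (Subgroup.mul_mem _ (rt_mem j t) (rt_mem i s))
  intro k
  rw [rc_mul (rt_mem i s) (rt_mem j t), rc_mul (rt_mem j t) (rt_mem i s), add_comm]

theorem UU_gen {H : Subgroup (GS (n + 1) K)} (hH : ∀ j s, rt j s ∈ H) {g : GS (n + 1) K}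
    (hg : g ∈ UU n K) : g ∈ H := by
  have key : ∀ (s : Finset (Fin n)) (g : GS (n + 1) K), g ∈ UU n K →
      (∀ j ∉ s, g 0 j.succ = 0) → g ∈ H := by
    intro s
    induction s using Finset.induction_on with
    | empty =>
      intro g hg h
      have : g = 1 := rc_ext hg (Subgroup.one_mem _) (fun j => by
        rw [h j (Finset.notMem_empty j), rc_one])
      rw [this]
      exact Subgroup.one_mem _
    | insert i s hi ih =>
      intro g hg h
      have h1 : rt i (- g 0 i.succ) ∈ UU n K := rt_mem i _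
      have h2 := ih (g * rt i (- g 0 i.succ)) (Subgroup.mul_mem _ hg h1) (fun j hj => by
        rw [rc_mul hg h1, rc_rt]
        by_cases hij : i = j
        · rw [if_pos hij, hij, add_neg_cancel]
        · rw [if_neg hij, add_zero]
          exact h j (by
            rw [Finset.mem_insert, not_or]
            exact ⟨fun h => hij h.symm, hj⟩))
      have h3 := Subgroup.mul_mem _ h2 (Subgroup.inv_mem _ (hH i (- g 0 i.succ)))
      rwa [mul_inv_cancel_right] at h3
  exact key Finset.univ g hg (fun j hj => absurd (Finset.mem_univ j) hj)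

/-- Transitivity on nonzero vectors. -/
theorem exists_move (hn : 1 ≤ n) {v w : Fin (n + 1) → K} (hv : v ≠ 0) (hw : w ≠ 0) :
    ∃ g : GS (n + 1) K, nat (n + 1) K g v = w := by
  have key : ∀ {v w : Fin (n + 1) → K}, LinearIndependent K ![v, w] →
      ∃ g : GS (n + 1) K, nat (n + 1) K g v = w := by
    intro v w h
    obtain ⟨φ, hφ⟩ := exists_form h
    have h0 : φ v = 1 := by simpa using hφ 0
    have h1 : φ w = 1 := by simpa using hφ 1
    have h2 : φ (w - v) = 0 := by rw [map_sub, h0, h1, sub_self]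
    have h3 : IsTv (LinearEquiv.transvection h2) φ (w - v) := ⟨h2, fun x => rfl⟩
    obtain ⟨g, hg⟩ := nat_tv h3
    refine ⟨g, ?_⟩
    rw [hg, h3.2, h0, one_smul, add_sub_cancel]
  -- a third vector
  obtain ⟨u, hu⟩ : ∃ u : Fin (n + 1) → K, u ∉ Submodule.span K {v} ∧
      u ∉ Submodule.span K {w} := by
    have hfin : ∀ z : Fin (n + 1) → K, Module.finrank K (Submodule.span K {z}) <
        Module.finrank K (Fin (n + 1) → K) := by
      intro z
      have h1 : Module.finrank K (Submodule.span K {z}) ≤ 1 :=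
        (finrank_span_le_card _).trans (by simp)
      rw [Module.finrank_fin_fun]
      omega
    have hne : ∀ z : Fin (n + 1) → K, ∃ u, u ∉ Submodule.span K {z} := by
      intro z
      by_contra hcon
      push Not at hcon
      have h1 : Submodule.span K {z} = ⊤ := by
        rw [eq_top_iff]; intro x _; exact hcon x
      have h2 := hfin z
      rw [h1, finrank_top] at h2
      exact lt_irrefl _ h2
    by_cases h : w ∈ Submodule.span K {v}
    · obtain ⟨u, hu⟩ := hne v
      refine ⟨u, hu, fun hu' => hu ?_⟩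
      exact (Submodule.span_singleton_le_iff_mem _ _).mpr h hu'
    · refine ⟨v + w, fun hu => h ?_, fun hu => h ?_⟩
      · have := Submodule.sub_mem _ hu (Submodule.mem_span_singleton_self v)
        rwa [add_sub_cancel_left] at this
      · have h2 := Submodule.sub_mem _ hu (Submodule.mem_span_singleton_self w)
        rw [add_sub_cancel_right] at h2
        obtain ⟨c, hc⟩ := Submodule.mem_span_singleton.mp h2
        have hc0 : c ≠ 0 := by
          rintro rfl
          rw [zero_smul] at hc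
          exact hv hc.symm
        rw [Submodule.mem_span_singleton]
        refine ⟨c⁻¹, ?_⟩
        rw [← hc, smul_smul, inv_mul_cancel₀ hc0, one_smul]
  obtain ⟨g, hg⟩ := key (linInd_pair hv hu.1)
  obtain ⟨h, hh⟩ := key (linInd_swap (linInd_pair hw hu.2))
  refine ⟨h * g, ?_⟩
  rw [map_mul, LinearEquiv.mul_apply, hg, hh]

end Vale.Agent.P180.R2.H589.Sch
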