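import Vale.Agent.P180.R2.H589.Sch.Cop
import Vale.Agent.P180.R2.H589.Sch.Pair
import Vale.Agent.P180.R2.H589.Sch.Rad

/-!
P180: perfect central extensions of `SL(n, K)`: the kernel has order prime to `p`, the
characteristic.
-/

set_option linter.all false

namespace Vale.Agent.P180.R2.H589.Sch

open Subgroup Module
open scoped commutatorElement

variable {K : Type*} [Field K]

section Tor

variable {N : ℕ}

/-- A diagonal element. -/
def D3 (i j k : Fin N) (a : K) : Fin N → K := fun l => D2 i j a l * D2 k j a l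

theorem D3_prod {i j k : Fin N} (hij : i ≠ j) (hkj : k ≠ j) {a : K} (ha : a ≠ 0) :
    ∏ l, D3 i j k a l = 1 := by
  unfold D3
  rw [Finset.prod_mul_distrib, D2_prod hij ha, D2_prod hkj ha, one_mul]

theorem D2_fst {i j : Fin N} (a : K) : D2 i j a i = a := if_pos rfl

theorem D2_snd {i j : Fin N} (hij : i ≠ j) (a : K) : D2 i j a j = a⁻¹ := by
  unfold D2
  rw [if_neg hij.symm, if_pos rfl]

theorem D2_oth {i j l : Fin N} (h1 : l ≠ i) (h2 : l ≠ j) (a : K) : D2 i j a l = 1 := by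
  unfold D2
  rw [if_neg h1, if_neg h2]

theorem D3_fst {i j k : Fin N} (hij : i ≠ j) (hik : i ≠ k) (a : K) : D3 i j k a i = a := by
  unfold D3
  rw [D2_fst, D2_oth hik hij, mul_one]

theorem D3_trd {i j k : Fin N} (hkj : k ≠ j) (hik : i ≠ k) (a : K) : D3 i j k a k = a := by
  unfold D3
  rw [D2_fst, D2_oth hik.symm hkj, one_mul]

theorem D3_snd {i j k : Fin N} (hij : i ≠ j) (hkj : k ≠ j) (a : K) :
    D3 i j k a j = a⁻¹ * a⁻¹ := by
  unfold D3
  rw [D2_snd hij, D2_snd hkj]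

theorem D3_oth {i j k l : Fin N} (h1 : l ≠ i) (h2 : l ≠ j) (h3 : l ≠ k) (a : K) :
    D3 i j k a l = 1 := by
  unfold D3
  rw [D2_oth h1 h2, D2_oth h3 h2, one_mul]

theorem dg_comm {D D' : Fin N → K} (hD : ∏ l, D l = 1) (hD' : ∏ l, D' l = 1) :
    dg D hD * dg D' hD' = dg D' hD' * dg D hD := by
  apply Subtype.ext
  change Matrix.diagonal D * Matrix.diagonal D' = Matrix.diagonal D' * Matrix.diagonal D
  rw [Matrix.diagonal_mul_diagonal, Matrix.diagonal_mul_diagonal]
  congr 1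
  funext i
  exact mul_comm _ _

end Tor

section Chr

variable {n : ℕ} {E : Type*} [Group E] {f : E →* GS (n + 1) K}

/-- the radical in the extension -/
def WW (f : E →* GS (n + 1) K) : Subgroup E := (UU n K).comap f

theorem mem_WW {x : E} : x ∈ WW f ↔ f x ∈ UU n K := Iff.rfl

theorem ker_le_WW : f.ker ≤ WW f := fun x hx => by
  rw [mem_WW, MonoidHom.mem_ker.mp hx]
  exact Subgroup.one_mem _

theorem WW_gen (hf : Function.Surjective f) {H : Subgroup E} (hker : f.ker ≤ H)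
    (hH : ∀ (j : Fin n) (s : K) (y : E), f y = rt j s → y ∈ H) {x : E} (hx : x ∈ WW f) :
    x ∈ H := by
  have h1 : f x ∈ H.map f := UU_gen (fun j s => by
    obtain ⟨y, hy⟩ := hf (rt j s)
    exact ⟨y, hH j s y hy, hy⟩) hx
  obtain ⟨y, hy, hyx⟩ := h1
  have h2 : y⁻¹ * x ∈ H := hker (by
    rw [MonoidHom.mem_ker, map_mul, map_inv, hyx, inv_mul_cancel])
  have h3 := H.mul_mem hy h2
  rwa [mul_inv_cancel_left] at h3

theorem rt_lift_comm [Finite K] (hK : 9 < Nat.card K) (hf : Function.Surjective f)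
    (hk : f.ker ≤ center E) {i j : Fin n} {s t : K} {a b : E} (ha : f a = rt i s)
    (hb : f b = rt j t) : a * b = b * a := by
  by_cases hij : i = j
  · subst hij
    refine comm_of_squares hK hf hk (ρ := rt i) (rt_add i) (fun m hm => ?_) ha hb
    refine ⟨dg (D2 0 i.succ m) (D2_prod (Fin.succ_ne_zero i).symm hm), fun s => ?_⟩
    rw [rt_dg, D2_fst, D2_snd (Fin.succ_ne_zero i).symm, inv_inv, sq]
  · obtain ⟨μ, h0, h2, h3⟩ := exists_mu (K := K) (by omega)
    have hij' : i.succ ≠ j.succ := (Fin.succ_injective n).ne hij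
    obtain ⟨g, hg⟩ := hf (dg (D3 0 i.succ j.succ μ)
      (D3_prod (Fin.succ_ne_zero i).symm hij'.symm h0))
    refine comm_of_scale hf hk (ρ := rt i) (ρ' := rt j) (rt_add i) (rt_add j) (rt_comm i j)
      (g := g) (lam := μ * (μ⁻¹ * μ⁻¹)⁻¹) ?_ (fun s => ?_) (fun t => ?_) ha hb
    · intro h
      apply h3
      rw [← h]
      field_simp
    · rw [hg, rt_dg, D3_fst (Fin.succ_ne_zero i).symm (Fin.succ_ne_zero j).symm,
        D3_snd (Fin.succ_ne_zero i).symm hij'.symm]
    · rw [hg, rt_dg, D3_fst (Fin.succ_ne_zero i).symm (Fin.succ_ne_zero j).symm,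
        D3_trd hij'.symm (Fin.succ_ne_zero j).symm, mul_inv_cancel₀ h0, one_mul]

theorem WW_comm [Finite K] (hK : 9 < Nat.card K) (hf : Function.Surjective f)
    (hk : f.ker ≤ center E) {x y : E} (hx : x ∈ WW f) (hy : y ∈ WW f) : x * y = y * x := by
  have h1 : ∀ {j : Fin n} {t : K} {b : E}, f b = rt j t → ∀ x ∈ WW f, x * b = b * x := by
    intro j t b hb x hx
    have h2 : x ∈ centralizer ({b} : Set E) := by
      refine WW_gen hf (fun z hz => ?_) (fun i s z hz => ?_) hx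
      · rw [mem_centralizer_iff]
        rintro _ rfl
        exact mem_center_iff.mp (hk hz) _
      · rw [mem_centralizer_iff]
        rintro _ rfl
        exact rt_lift_comm hK hf hk hb hz
    rw [mem_centralizer_iff] at h2
    exact (h2 b rfl).symm
  have h2 : y ∈ centralizer ({x} : Set E) := by
    refine WW_gen hf (fun z hz => ?_) (fun i s z hz => ?_) hy
    · rw [mem_centralizer_iff]
      rintro _ rfl
      exact mem_center_iff.mp (hk hz) _
    · rw [mem_centralizer_iff]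
      rintro _ rfl
      exact h1 hz _ hx
  rw [mem_centralizer_iff] at h2
  exact h2 x rfl

theorem WW_conj_St {x y : E} (hx : x ∈ WW f) (hy : f y ∈ St n K) : y * x * y⁻¹ ∈ WW f := by
  rw [mem_WW, map_mul, map_mul, map_inv]
  exact UU_conj hy hx

/-- regular elements of the torus -/
def Reg (f : E →* GS (n + 1) K) (g : E) : Prop :=
  ∃ (D : Fin (n + 1) → K) (hD : ∏ l, D l = 1), f g = dg D hD ∧ ∀ j : Fin n, D 0 ≠ D j.succ

theorem Reg.conj {g : E} (hg : Reg f g) {x : E} (hx : x ∈ WW f) : g * x * g⁻¹ ∈ WW f := by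
  obtain ⟨D, hD, h1, h2⟩ := hg
  rw [mem_WW, map_mul, map_mul, map_inv, h1]
  exact UU_dg hD hx

theorem Reg.comm_mem {g : E} (hg : Reg f g) {x : E} (hx : x ∈ WW f) : ⁅x, g⁆ ∈ WW f := by
  have h1 : ⁅x, g⁆ = x * (g * x * g⁻¹)⁻¹ := by rw [commutatorElement_def]; group
  rw [h1]
  exact Subgroup.mul_mem _ hx (Subgroup.inv_mem _ (hg.conj hx))

variable [Finite K] (hK : 9 < Nat.card K) (hf : Function.Surjective f) (hk : f.ker ≤ center E)

include hK hf hk

theorem Reg.comm_mul {g : E} (hg : Reg f g) {x y : E} (hx : x ∈ WW f) (hy : y ∈ WW f) :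
    ⁅x * y, g⁆ = ⁅x, g⁆ * ⁅y, g⁆ := by
  have h1 := WW_comm hK hf hk (hg.comm_mem hy) (Subgroup.inv_mem _ (hg.conj hx))
  calc ⁅x * y, g⁆ = x * (⁅y, g⁆ * (g * x * g⁻¹)⁻¹) := by
        rw [commutatorElement_def, commutatorElement_def]; group
    _ = x * ((g * x * g⁻¹)⁻¹ * ⁅y, g⁆) := by rw [h1]
    _ = _ := by
        rw [commutatorElement_def, commutatorElement_def]; group

/-- The commutators of the radical with a regular element. -/
def TT {g : E} (hg : Reg f g) : Subgroup E where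
  carrier := {z | ∃ x ∈ WW f, z = ⁅x, g⁆}
  one_mem' := ⟨1, Subgroup.one_mem _, (commutatorElement_one_left g).symm⟩
  mul_mem' := by
    rintro _ _ ⟨x, hx, rfl⟩ ⟨y, hy, rfl⟩
    exact ⟨x * y, Subgroup.mul_mem _ hx hy, (Reg.comm_mul hK hf hk hg hx hy).symm⟩
  inv_mem' := by
    rintro _ ⟨x, hx, rfl⟩
    refine ⟨x⁻¹, Subgroup.inv_mem _ hx, ?_⟩
    have h1 := Reg.comm_mul hK hf hk hg (Subgroup.inv_mem _ hx) hx
    rw [inv_mul_cancel, commutatorElement_one_left] at h1
    exact (eq_inv_of_mul_eq_one_left h1.symm).symm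

theorem mem_TT {g : E} (hg : Reg f g) {z : E} :
    z ∈ TT hK hf hk hg ↔ ∃ x ∈ WW f, z = ⁅x, g⁆ := Iff.rfl

theorem TT_le {g : E} (hg : Reg f g) : TT hK hf hk hg ≤ WW f := by
  rintro _ ⟨x, hx, rfl⟩
  exact hg.comm_mem hx

omit [Finite K] hK hf hk in
theorem rc_comm {g : E} {D : Fin (n + 1) → K} (hD : ∏ l, D l = 1) (hg : f g = dg D hD) {x : E}
    (hx : x ∈ WW f) (j : Fin n) :
    (f ⁅x, g⁆) 0 j.succ = (1 - D 0 * (D j.succ)⁻¹) * (f x) 0 j.succ := by
  have h1 : ⁅x, g⁆ = x * (g * x * g⁻¹)⁻¹ := by rw [commutatorElement_def]; group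
  have h2 : f (g * x * g⁻¹) ∈ UU n K := by
    rw [map_mul, map_mul, map_inv, hg]
    exact UU_dg hD hx
  rw [h1, map_mul, map_inv, rc_mul hx (Subgroup.inv_mem _ h2), rc_inv h2,
    rc_dg (g := f x) (g' := f (g * x * g⁻¹)) hD (by
      rw [← hg, ← map_mul, ← map_mul]
      congr 1
      group)]
  ring

theorem TT_ker {g : E} (hg : Reg f g) {z : E} (hz : z ∈ TT hK hf hk hg) (hfz : f z = 1) :
    z = 1 := by
  obtain ⟨x, hx, rfl⟩ := hz
  obtain ⟨D, hD, h1, h2⟩ := hg
  have h3 : f x = 1 := by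
    apply rc_ext hx (Subgroup.one_mem _)
    intro j
    have h4 := rc_comm hD h1 hx j
    rw [hfz, rc_one] at h4
    have h5 : (1 - D 0 * (D j.succ)⁻¹) ≠ 0 := by
      intro h5
      apply h2 j
      have h6 := dg_ne hD j.succ
      have h7 : D 0 * (D j.succ)⁻¹ = 1 := (sub_eq_zero.mp h5).symm
      exact (mul_inv_eq_one₀ h6).mp h7
    rw [rc_one]
    exact (mul_eq_zero.mp h4.symm).resolve_left h5
  rw [commutatorElement_eq_one_iff_mul_comm]
  exact (mem_center_iff.mp (hk (MonoidHom.mem_ker.mpr h3)) g).symm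

theorem TT_sup {g : E} (hg : Reg f g) {x : E} (hx : x ∈ WW f) :
    ∃ t ∈ TT hK hf hk hg, f t = f x := by
  have h1 : x ∈ ((TT hK hf hk hg).map f).comap f := by
    refine WW_gen hf (fun z hz => ?_) (fun j s y hy => ?_) hx
    · rw [mem_comap, MonoidHom.mem_ker.mp hz]
      exact Subgroup.one_mem _
    · obtain ⟨D, hD, h1, h2⟩ := id hg
      have h5 : (1 - D 0 * (D j.succ)⁻¹) ≠ 0 := by
        intro h5
        apply h2 j
        have h6 := dg_ne hD j.succ
        have h7 : D 0 * (D j.succ)⁻¹ = 1 := (sub_eq_zero.mp h5).symm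
        exact (mul_inv_eq_one₀ h6).mp h7
      obtain ⟨z, hz⟩ := hf (rt j ((1 - D 0 * (D j.succ)⁻¹)⁻¹ * s))
      have hzW : z ∈ WW f := by rw [mem_WW, hz]; exact rt_mem j _
      refine ⟨⁅z, g⁆, ⟨z, hzW, rfl⟩, ?_⟩
      rw [hy]
      apply rc_ext (hg.comm_mem hzW) (rt_mem j s)
      intro k
      rw [rc_comm hD h1 hzW, hz, rc_rt, rc_rt]
      by_cases hjk : j = k
      · rw [if_pos hjk, if_pos hjk, ← hjk, mul_inv_cancel_left₀ h5]
      · rw [if_neg hjk, if_neg hjk, mul_zero]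
  obtain ⟨t, ht, htx⟩ := h1
  exact ⟨t, ht, htx⟩

theorem TT_conj {g : E} (hg : Reg f g) {y : E} (hy : ∀ x ∈ WW f, y * x * y⁻¹ ∈ WW f)
    (hyg : f y * f g = f g * f y) {t : E} (ht : t ∈ TT hK hf hk hg) :
    y * t * y⁻¹ ∈ TT hK hf hk hg := by
  obtain ⟨x, hx, rfl⟩ := ht
  refine ⟨y * x * y⁻¹, hy x hx, ?_⟩
  have h1 : y * ⁅x, g⁆ * y⁻¹ = ⁅y * x * y⁻¹, y * g * y⁻¹⁆ := by
    rw [commutatorElement_def, commutatorElement_def]; group
  rw [h1]
  refine comm_congr hk rfl ?_
  rw [map_mul, map_mul, map_inv, hyg, mul_inv_cancel_right]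

theorem TT_le_TT {g h : E} (hg : Reg f g) (hh : Reg f h) :
    TT hK hf hk hg ≤ TT hK hf hk hh := by
  rintro _ ⟨x, hx, rfl⟩
  obtain ⟨t, ht, htx⟩ := TT_sup hK hf hk hh hx
  have h1 : ⁅x, g⁆ = ⁅t, g⁆ := comm_congr hk htx.symm rfl
  have h2 : ⁅t, g⁆ = t * (g * t * g⁻¹)⁻¹ := by rw [commutatorElement_def]; group
  rw [h1, h2]
  refine Subgroup.mul_mem _ ht (Subgroup.inv_mem _ ?_)
  refine TT_conj hK hf hk hh (fun x hx => hg.conj hx) ?_ ht
  obtain ⟨D, hD, h3, -⟩ := hg
  obtain ⟨D', hD', h4, -⟩ := hh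
  rw [h3, h4, dg_comm]

/-- the stabiliser normalises `TT` -/
theorem TT_normal (hn : 1 ≤ n) {h : E} (hh : Reg f h) {y : E} (hy : f y ∈ St n K) {t : E}
    (ht : t ∈ TT hK hf hk hh) : y * t * y⁻¹ ∈ TT hK hf hk hh := by
  have key : ∀ B : GS n K, ∃ (q : E) (hq : f q ∈ St n K), blk n K ⟨f q, hq⟩ = B ∧
      ∀ t ∈ TT hK hf hk hh, q * t * q⁻¹ ∈ TT hK hf hk hh := by
    intro B
    refine tv_induction hn (fun B => ∃ (q : E) (hq : f q ∈ St n K), blk n K ⟨f q, hq⟩ = B ∧
      ∀ t ∈ TT hK hf hk hh, q * t * q⁻¹ ∈ TT hK hf hk hh) ?_ ?_ ?_ B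
    · intro i j hij c
      have hne := (Fin.succ_injective n).ne hij
      obtain ⟨q, hfq⟩ := hf (tv hne c)
      have h1 : f q ∈ St n K := by rw [hfq]; exact tv_mem_St hij c
      refine ⟨q, h1, ?_, ?_⟩
      · rw [← blk_tv hij c]
        congr 1
        exact Subtype.ext hfq
      · obtain ⟨μ, h0, h2, h3⟩ := exists_mu (K := K) (by omega)
        have hi := Fin.succ_ne_zero i
        have hj := Fin.succ_ne_zero j
        obtain ⟨g, hg⟩ := hf (dg (D3 i.succ 0 j.succ μ) (D3_prod hi hj h0))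
        have hgr : Reg f g := by
          refine ⟨_, _, hg, fun k => ?_⟩
          rw [D3_snd hi hj]
          by_cases hki : k = i
          · rw [hki, D3_fst hi hne]
            intro h
            apply h3
            have : μ * (μ * μ) = 1 := by
              nth_rewrite 1 [← h]
              field_simp
            rw [← this]; ring
          · by_cases hkj : k = j
            · rw [hkj, D3_trd hj hne]
              intro h
              apply h3
              have : μ * (μ * μ) = 1 := by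
                nth_rewrite 1 [← h]
                field_simp
              rw [← this]; ring
            · rw [D3_oth ((Fin.succ_injective n).ne hki) (Fin.succ_ne_zero k)
                ((Fin.succ_injective n).ne hkj)]
              intro h
              apply h2
              have : μ * μ = 1 := by
                have h5 : μ * μ * (μ⁻¹ * μ⁻¹) = 1 := by field_simp
                rwa [h, mul_one] at h5
              rw [← this]; ring
        intro t ht
        refine TT_le_TT hK hf hk hgr hh ?_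
        refine TT_conj hK hf hk hgr (fun x hx => WW_conj_St hx h1) ?_
          (TT_le_TT hK hf hk hh hgr ht)
        rw [hg, hfq]
        have h5 := dg_conj _ (D3_prod hi hj h0) hne c
        rw [D3_fst hi hne, D3_trd hj hne, mul_inv_cancel₀ h0, one_mul] at h5
        exact (mul_inv_eq_iff_eq_mul.mp h5).symm
    · refine ⟨1, by rw [map_one]; exact Subgroup.one_mem _, ?_, fun t ht => ?_⟩
      · rw [← map_one (blk n K)]
        congr 1
        exact Subtype.ext (map_one f)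
      · rwa [one_mul, inv_one, mul_one]
    · rintro A B ⟨q, hq, hb, hT⟩ ⟨q', hq', hb', hT'⟩
      refine ⟨q * q', by rw [map_mul]; exact Subgroup.mul_mem _ hq hq', ?_, fun t ht => ?_⟩
      · rw [← hb, ← hb', ← (blk n K).map_mul]
        congr 1
        exact Subtype.ext (map_mul f q q')
      · have : q * q' * t * (q * q')⁻¹ = q * (q' * t * q'⁻¹) * q⁻¹ := by group
        rw [this]
        exact hT _ (hT' t ht)
  obtain ⟨q, hq, hb, hT⟩ := key (blk n K ⟨f y, hy⟩)
  have h1 : f (q⁻¹ * y) ∈ St n K := by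
    rw [map_mul, map_inv]
    exact Subgroup.mul_mem _ (Subgroup.inv_mem _ hq) hy
  have h2 : q⁻¹ * y ∈ WW f := by
    rw [mem_WW, UU_iff h1]
    have h4 : (⟨f (q⁻¹ * y), h1⟩ : St n K) = (⟨f q, hq⟩ : St n K)⁻¹ * ⟨f y, hy⟩ :=
      Subtype.ext (by
        change f (q⁻¹ * y) = (f q)⁻¹ * f y
        rw [map_mul, map_inv])
    rw [h4, map_mul, map_inv, hb, inv_mul_cancel]
  have h3 : y * t * y⁻¹ = q * ((q⁻¹ * y) * t * (q⁻¹ * y)⁻¹) * q⁻¹ := by group
  rw [h3, WW_comm hK hf hk h2 (TT_le hK hf hk hh ht), mul_inv_cancel_right]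
  exact hT t ht

omit hk in
theorem exists_reg (hn : 1 ≤ n) : ∃ g, Reg f g := by
  obtain ⟨μ, h0, h2, h3⟩ := exists_mu (K := K) (by omega)
  have hμ : μ ≠ 1 := by
    rintro rfl
    exact h2 (one_pow 2)
  let j0 : Fin n := ⟨0, hn⟩
  have hj := (Fin.succ_ne_zero j0).symm
  obtain ⟨g, hg⟩ := hf (dg (D2 0 j0.succ μ) (D2_prod hj h0))
  refine ⟨g, _, _, hg, fun k => ?_⟩
  rw [D2_fst]
  by_cases hk : k = j0
  · rw [hk, D2_snd hj]
    intro h
    apply h2
    rw [sq]
    nth_rewrite 1 [h]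
    exact inv_mul_cancel₀ h0
  · rw [D2_oth (Fin.succ_ne_zero k) ((Fin.succ_injective n).ne hk)]
    exact hμ

end Chr

end Vale.Agent.P180.R2.H589.Sch
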