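import Vale.Agent.P180.R2.H589.Sch.Chr

/-!
P180: a finite perfect central extension of `SL(n, K)` has a kernel of order prime to the
characteristic (if `|K| > 9`).
-/

set_option linter.all false

namespace Vale.Agent.P180.R2.H589.Sch

open Subgroup Module
open scoped commutatorElement

theorem perfect_commutator {M G : Type*} [Group M] [Group G] (F : M →* G)
    (hF : Function.Surjective F) (hk : F.ker ≤ center M) (hG : commutator G = ⊤) :
    (∀ m : M, ∃ c ∈ commutator M, F c = F m) ∧ commutator (commutator M) = ⊤ := by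
  have hmap : (commutator M).map F = ⊤ := by
    rw [commutator_def, map_commutator, ← MonoidHom.range_eq_map, MonoidHom.range_eq_top.mpr hF,
      ← commutator_def, hG]
  have h1 : ∀ m : M, ∃ c ∈ commutator M, F c = F m := by
    intro m
    have h2 : F m ∈ (commutator M).map F := by rw [hmap]; exact mem_top _
    exact h2
  refine ⟨h1, ?_⟩
  have h2 : commutator M ≤ ⁅commutator M, commutator M⁆ := by
    nth_rewrite 1 [commutator_def]
    rw [commutator_le]
    intro x _ y _
    obtain ⟨x', hx', hxx⟩ := h1 x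
    obtain ⟨y', hy', hyy⟩ := h1 y
    rw [comm_congr hk hxx.symm hyy.symm]
    exact commutator_mem_commutator hx' hy'
  rw [eq_top_iff]
  rintro ⟨c, hc⟩ -
  have h3 := h2 hc
  rw [← map_subtype_commutator] at h3
  obtain ⟨d, hd, hdc⟩ := h3
  have : d = ⟨c, hc⟩ := Subtype.ext hdc
  rwa [← this]

variable {K : Type*} [Field K] [Finite K] {p : ℕ} [Fact p.Prime] [CharP K p]

theorem not_dvd_index {n : ℕ} (hn : 1 ≤ n) {E : Type*} [Group E] [Finite E]
    {f : E →* GS (n + 1) K} (hf : Function.Surjective f) :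
    ¬ p ∣ ((St n K).comap f).index := by
  let S : Sylow p E := default
  let V := Fin (n + 1) → K
  letI act0 : MulAction S V :=
    MulAction.compHom V (((nat (n + 1) K).comp f).comp (S : Subgroup E).subtype)
  have hsm : ∀ (s : S) (v : V), s • v = nat (n + 1) K (f (s : E)) v := fun s v => rfl
  have hcard : p ∣ Nat.card V := by
    haveI := Fintype.ofFinite K
    have h1 : p ∣ Nat.card K := by
      rw [Nat.card_eq_fintype_card, ← CharP.cast_eq_zero_iff K p]
      exact Nat.cast_card_eq_zero K
    rw [Module.natCard_eq_pow_finrank (K := K)]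
    refine dvd_pow h1 ?_
    rw [Module.finrank_fin_fun]
    omega
  have h0 : (0 : V) ∈ MulAction.fixedPoints S V := by
    rw [MulAction.mem_fixedPoints]
    intro s
    rw [hsm, map_zero]
  obtain ⟨v, hv, hv0⟩ :=
    S.isPGroup'.exists_fixed_point_of_prime_dvd_card_of_fixed_point V hcard h0
  rw [MulAction.mem_fixedPoints] at hv
  obtain ⟨g, hg⟩ := exists_move (K := K) hn hv0.symm (o1_ne (n := n))
  obtain ⟨y, rfl⟩ := hf g
  have hle : ((y • S : Sylow p E) : Subgroup E) ≤ (St n K).comap f := by
    intro x hx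
    rw [Sylow.coe_subgroup_smul, mem_pointwise_smul_iff_inv_smul_mem, ← map_inv,
      MulAut.smul_def, MulAut.conj_apply, inv_inv] at hx
    have h1 := hv ⟨_, hx⟩
    rw [hsm] at h1
    have h2 : nat (n + 1) K (f (y⁻¹ * x * y)) v = v := h1
    rw [mem_comap, mem_St, ← hg]
    nth_rewrite 2 [← h2]
    rw [← LinearEquiv.mul_apply, ← LinearEquiv.mul_apply, ← map_mul, ← map_mul, ← map_mul,
      ← map_mul]
    congr 3
    group
  intro hd
  exact Sylow.not_dvd_index (y • S) (hd.trans (index_dvd_of_le hle))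

/-- The claim. -/
def ChrClaim (n : ℕ) (K : Type*) [Field K] (p : ℕ) : Prop :=
  ∀ (E : Type) [Group E] [Finite E] (f : E →* GS n K), Function.Surjective f →
    f.ker ≤ center E → commutator E = ⊤ → ∀ a, f a = 1 → Pel p a → a = 1

omit [Finite K] [Fact p.Prime] [CharP K p] in
theorem chrClaim_one : ChrClaim 1 K p := by
  intro E _ _ f hf hk hE a ha _
  have h1 : ∀ A : GS 1 K, A = 1 := by
    intro A
    exact tv_induction (le_refl 1) (fun A => A = 1)
      (fun i j hij c => absurd (Subsingleton.elim i j) hij) rfl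
      (fun A B hA hB => by rw [hA, hB, one_mul]) A
  have h2 : ∀ x : E, x ∈ center E := fun x => hk (MonoidHom.mem_ker.mpr (h1 _))
  have h3 : commutator E = ⊥ := by
    rw [commutator_def, eq_bot_iff, commutator_le]
    intro x _ y _
    rw [mem_bot, commutatorElement_eq_one_iff_mul_comm]
    exact mem_center_iff.mp (h2 y) x
  have h4 : a ∈ (⊤ : Subgroup E) := mem_top a
  rw [← hE, h3] at h4
  exact mem_bot.mp h4

theorem chrClaim_succ {n : ℕ} (hn : 1 ≤ n) (hK : 9 < Nat.card K) (ih : ChrClaim n K p) :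
    ChrClaim (n + 1) K p := by
  intro E _ _ f hf hk hE a ha hpa
  obtain ⟨μ, hμ0, hμ2, -⟩ := exists_mu (K := K) (by omega)
  obtain ⟨h, hh⟩ := exists_reg (f := f) hK hf hn
  set P : Subgroup E := (St n K).comap f with hP
  have hac : a ∈ center E := hk (MonoidHom.mem_ker.mpr ha)
  have haP : a ∈ P := by
    change f a ∈ St n K
    rw [ha]; exact Subgroup.one_mem _
  have h1 : a ∈ ⁅P, P⁆ := mem_commutator_of_central (l := p) hE (not_dvd_index hn hf) hac haP hpa
  rw [← map_subtype_commutator] at h1
  obtain ⟨a', ha', haa⟩ := h1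
  let T : Subgroup P := (TT hK hf hk hh).subgroupOf P
  have hT : T.Normal := by
    refine ⟨?_⟩
    intro t ht y
    rw [mem_subgroupOf] at ht ⊢
    exact TT_normal hK hf hk hn hh (y := (y : E)) y.2 ht
  let g : P →* St n K := (f.comp P.subtype).codRestrict (St n K) fun y => y.2
  let f' : P →* GS n K := (blk n K).comp g
  have hTk : T ≤ f'.ker := by
    intro y hy
    have h2 : f (y : E) ∈ UU n K := TT_le hK hf hk hh hy
    exact (UU_iff (g := f (y : E)) y.2).mp h2
  let F : P ⧸ T →* GS n K := QuotientGroup.lift T f' hTk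
  have hF : ∀ y : P, F (QuotientGroup.mk' T y) = f' y := fun y => rfl
  have hFs : Function.Surjective F := by
    intro B
    refine tv_induction hn (fun B => ∃ w, F w = B) (fun i j hij c => ?_) ⟨1, map_one F⟩
      (fun A B hA hB => ?_) B
    · obtain ⟨q, hq⟩ := hf (tv ((Fin.succ_injective n).ne hij) c)
      have h3 : f q ∈ St n K := by rw [hq]; exact tv_mem_St hij c
      refine ⟨QuotientGroup.mk' T ⟨q, h3⟩, ?_⟩
      rw [hF, ← blk_tv hij c]
      change blk n K ⟨f q, _⟩ = _
      congr 1
      exact Subtype.ext hq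
    · obtain ⟨w, rfl⟩ := hA
      obtain ⟨w', rfl⟩ := hB
      exact ⟨w * w', map_mul F w w'⟩
  have hFk : F.ker ≤ center (P ⧸ T) := by
    intro w hw
    obtain ⟨y, rfl⟩ := QuotientGroup.mk'_surjective T w
    have h3 : blk n K ⟨f (y : E), y.2⟩ = 1 := hw
    have h4 : (y : E) ∈ WW f := (UU_iff (g := f (y : E)) y.2).mpr h3
    obtain ⟨t, ht, hty⟩ := TT_sup hK hf hk hh h4
    have htP : t ∈ P := by
      change f t ∈ St n K
      rw [hty]; exact y.2
    have h5 : QuotientGroup.mk' T ⟨t, htP⟩ = 1 := (QuotientGroup.eq_one_iff _).mpr ht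
    have h6 : QuotientGroup.mk' T y = QuotientGroup.mk' T ((⟨t, htP⟩ : P)⁻¹ * y) := by
      rw [map_mul, map_inv, h5, inv_one, one_mul]
    have h7 : t⁻¹ * (y : E) ∈ center E := hk (by
      rw [MonoidHom.mem_ker, map_mul, map_inv, hty, inv_mul_cancel])
    rw [h6, mem_center_iff]
    intro v
    obtain ⟨v, rfl⟩ := QuotientGroup.mk'_surjective T v
    rw [← map_mul, ← map_mul]
    congr 1
    exact Subtype.ext (mem_center_iff.mp h7 v)
  obtain ⟨hs, hperf⟩ := perfect_commutator F hFs hFk (perfect_sl hn hμ0 hμ2)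
  have h8 : QuotientGroup.mk' T a' ∈ commutator (P ⧸ T) := by
    have h9 : (commutator P).map (QuotientGroup.mk' T) ≤ commutator (P ⧸ T) := by
      rw [commutator_def, map_commutator, commutator_def]
      exact commutator_mono le_top le_top
    exact h9 ⟨a', ha', rfl⟩
  have h9 := ih (commutator (P ⧸ T)) (F.comp (commutator (P ⧸ T)).subtype) (fun B => by
      obtain ⟨w, rfl⟩ := hFs B
      obtain ⟨c, hc, hcw⟩ := hs w
      exact ⟨⟨c, hc⟩, hcw⟩) (fun w hw => by
      rw [mem_center_iff]
      intro v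
      have h3 : (w : P ⧸ T) ∈ F.ker := hw
      exact Subtype.ext (mem_center_iff.mp (hFk h3) v)) hperf ⟨_, h8⟩ (by
      change blk n K ⟨f (a' : E), _⟩ = 1
      rw [← map_one (blk n K)]
      congr 1
      apply Subtype.ext
      change f (P.subtype a') = 1
      rw [haa, ha]) (by
      obtain ⟨m, hm⟩ := hpa
      refine ⟨m, Subtype.ext ?_⟩
      change (QuotientGroup.mk' T a') ^ p ^ m = 1
      rw [← map_pow, ← map_one (QuotientGroup.mk' T)]
      congr 1
      apply Subtype.ext
      change (P.subtype a') ^ p ^ m = 1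
      rw [haa, hm])
  have h10 : QuotientGroup.mk' T a' = 1 := congrArg Subtype.val h9
  have h11 : a' ∈ T := (QuotientGroup.eq_one_iff _).mp h10
  have h12 : a ∈ TT hK hf hk hh := by
    have h13 : (a' : E) ∈ TT hK hf hk hh := h11
    have h14 : (a' : E) = a := haa
    rwa [h14] at h13
  exact TT_ker hK hf hk hh h12 ha

theorem chrClaim {n : ℕ} (hn : 1 ≤ n) (hK : 9 < Nat.card K) : ChrClaim n K p := by
  induction n, hn using Nat.le_induction with
  | base => exact chrClaim_one
  | succ n hn ih => exact chrClaim_succ hn hK ih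

end Vale.Agent.P180.R2.H589.Sch
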