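import Vale.Agent.P180.R2.H589.Sch.Cyc2
import Mathlib.GroupTheory.PGroup

/-!
P180: perfect central extensions of `SL(2, K)`, the part prime to the characteristic.
-/

set_option linter.all false

namespace Vale.Agent.P180.R2.H589.Sch

open Subgroup Matrix

variable {K : Type*} [Field K]

/-- `-1` -/
def neg1 : SpecialLinearGroup (Fin 2) K := ⟨!![-1, 0; 0, -1], by rw [Matrix.det_fin_two_of]; ring⟩

theorem neg1_00 : (neg1 : SpecialLinearGroup (Fin 2) K) 0 0 = -1 := rfl
theorem neg1_01 : (neg1 : SpecialLinearGroup (Fin 2) K) 0 1 = 0 := rfl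
theorem neg1_10 : (neg1 : SpecialLinearGroup (Fin 2) K) 1 0 = 0 := rfl
theorem neg1_11 : (neg1 : SpecialLinearGroup (Fin 2) K) 1 1 = -1 := rfl

theorem one_00 : (1 : SpecialLinearGroup (Fin 2) K) 0 0 = 1 := rfl
theorem one_01 : (1 : SpecialLinearGroup (Fin 2) K) 0 1 = 0 := rfl
theorem one_10 : (1 : SpecialLinearGroup (Fin 2) K) 1 0 = 0 := rfl
theorem one_11 : (1 : SpecialLinearGroup (Fin 2) K) 1 1 = 1 := rfl

theorem neg1_comm (g : SpecialLinearGroup (Fin 2) K) : neg1 * g = g * neg1 := by
  apply ext2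
  · rw [mul_00, mul_00, neg1_00, neg1_01, neg1_10]; ring
  · rw [mul_01, mul_01, neg1_00, neg1_01, neg1_11]; ring
  · rw [mul_10, mul_10, neg1_00, neg1_11, neg1_10]; ring
  · rw [mul_11, mul_11, neg1_10, neg1_01, neg1_11]; ring

theorem neg1_sq : (neg1 * neg1 : SpecialLinearGroup (Fin 2) K) = 1 := by
  apply ext2
  · rw [mul_00, neg1_00, neg1_01, neg1_10, one_00]; ring
  · rw [mul_01, neg1_00, neg1_01, neg1_11, one_01]; ring
  · rw [mul_10, neg1_00, neg1_11, neg1_10, one_10]; ring
  · rw [mul_11, neg1_10, neg1_01, neg1_11, one_11]; ring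

theorem sq_00 (g : SpecialLinearGroup (Fin 2) K) : (g * g) 0 0 = t2 g * g 0 0 - 1 := by
  rw [mul_00, t2]; linear_combination -det_two g
theorem sq_01 (g : SpecialLinearGroup (Fin 2) K) : (g * g) 0 1 = t2 g * g 0 1 := by
  rw [mul_01, t2]; ring
theorem sq_10 (g : SpecialLinearGroup (Fin 2) K) : (g * g) 1 0 = t2 g * g 1 0 := by
  rw [mul_10, t2]; ring
theorem sq_11 (g : SpecialLinearGroup (Fin 2) K) : (g * g) 1 1 = t2 g * g 1 1 - 1 := by
  rw [mul_11, t2]; linear_combination -det_two g

theorem sq_of_t2 {g : SpecialLinearGroup (Fin 2) K} (h : t2 g = 0) : g * g = neg1 := by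
  apply ext2
  · rw [sq_00, h, neg1_00]; ring
  · rw [sq_01, h, neg1_01]; ring
  · rw [sq_10, h, neg1_10]; ring
  · rw [sq_11, h, neg1_11]; ring

theorem t2_of_sq {g : SpecialLinearGroup (Fin 2) K} (h : g * g = neg1) : t2 g = 0 := by
  by_contra hne
  have h0 : g 0 0 = 0 := by
    have h1 := sq_00 g
    rw [h, neg1_00] at h1
    have : t2 g * g 0 0 = 0 := by linear_combination -h1
    exact (mul_eq_zero.mp this).resolve_left hne
  have h01 : g 0 1 = 0 := by
    have h1 := sq_01 g
    rw [h, neg1_01] at h1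
    exact (mul_eq_zero.mp h1.symm).resolve_left hne
  have h2 := det_two g
  rw [h0, h01] at h2
  simp at h2

theorem eq_of_sq_one (h2 : (2 : K) ≠ 0) {g : SpecialLinearGroup (Fin 2) K} (h : g * g = 1) :
    g = 1 ∨ g = neg1 := by
  have e0 := sq_00 g
  have e1 := sq_01 g
  have e2 := sq_10 g
  have e3 := sq_11 g
  rw [h, one_00] at e0
  rw [h, one_01] at e1
  rw [h, one_10] at e2
  rw [h, one_11] at e3
  have ht : t2 g ≠ 0 := by
    intro h0
    rw [h0] at e0
    apply h2
    linear_combination e0
  have h01 : g 0 1 = 0 := (mul_eq_zero.mp e1.symm).resolve_left ht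
  have h10 : g 1 0 = 0 := (mul_eq_zero.mp e2.symm).resolve_left ht
  have h11 : g 1 1 = g 0 0 := by
    have : t2 g * (g 1 1 - g 0 0) = 0 := by linear_combination e0 - e3
    exact sub_eq_zero.mp ((mul_eq_zero.mp this).resolve_left ht)
  have hd := det_two g
  rw [h01, h11] at hd
  have h3 : (g 0 0 - 1) * (g 0 0 + 1) = 0 := by linear_combination hd
  rcases mul_eq_zero.mp h3 with h4 | h4
  · left
    have h5 : g 0 0 = 1 := sub_eq_zero.mp h4
    apply ext2
    · rw [h5, one_00]
    · rw [h01, one_01]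
    · rw [h10, one_10]
    · rw [h11, h5, one_11]
  · right
    have h5 : g 0 0 = -1 := eq_neg_of_add_eq_zero_left h4
    apply ext2
    · rw [h5, neg1_00]
    · rw [h01, neg1_01]
    · rw [h10, neg1_10]
    · rw [h11, h5, neg1_11]

theorem t2_conj_neg {y z : SpecialLinearGroup (Fin 2) K} (hz : t2 z = 0)
    (h : y * z = neg1 * (z * y)) (h2 : (2 : K) ≠ 0) : t2 y = 0 := by
  have e0 : (y * z) 0 0 = (neg1 * (z * y) : SpecialLinearGroup (Fin 2) K) 0 0 := by rw [h]
  have e1 : (y * z) 0 1 = (neg1 * (z * y) : SpecialLinearGroup (Fin 2) K) 0 1 := by rw [h]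
  have e3 : (y * z) 1 1 = (neg1 * (z * y) : SpecialLinearGroup (Fin 2) K) 1 1 := by rw [h]
  rw [mul_00, mul_00, neg1_00, neg1_01, mul_00] at e0
  rw [mul_01, mul_01, neg1_00, neg1_01, mul_01] at e1
  rw [mul_11, mul_11, neg1_10, neg1_11, mul_11] at e3
  have hd := det_two z
  have hz' : z 1 1 = - z 0 0 := by rw [t2] at hz; linear_combination hz
  rw [t2]
  rw [hz'] at e1 e3 hd
  have h3 : 2 * (y 0 0 + y 1 1) = 0 := by
    linear_combination (-z 0 0) * (e0 - e3) + (-2 * z 1 0) * e1 - 2 * (y 0 0 + y 1 1) * hd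
  exact (mul_eq_zero.mp h3).resolve_left h2

/-- Powers of a unipotent element. -/
theorem pow_unip {w : SpecialLinearGroup (Fin 2) K} (h : t2 w = 2) (n : ℕ) :
    (w ^ n) 0 0 = 1 + n * (w 0 0 - 1) ∧ (w ^ n) 0 1 = n * w 0 1 ∧ (w ^ n) 1 0 = n * w 1 0 ∧
      (w ^ n) 1 1 = 1 + n * (w 1 1 - 1) := by
  have hd := det_two w
  rw [t2] at h
  induction n with
  | zero => simp
  | succ n ih =>
    obtain ⟨h0, h1, h2, h3⟩ := ih
    have h11 : w 1 1 = 2 - w 0 0 := by linear_combination h
    rw [pow_succ]
    refine ⟨?_, ?_, ?_, ?_⟩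
    · rw [mul_00, h0, h1]
      push_cast
      rw [h11] at hd
      linear_combination -(n : K) * hd
    · rw [mul_01, h0, h1, h11]
      push_cast
      ring
    · rw [mul_10, h2, h3, h11]
      push_cast
      ring
    · rw [mul_11, h2, h3]
      push_cast
      rw [h11] at hd ⊢
      linear_combination -(n : K) * hd

variable {p : ℕ} [CharP K p]

theorem pow_char {w : SpecialLinearGroup (Fin 2) K} (h : t2 w = 2) : w ^ p = 1 := by
  obtain ⟨h0, h1, h2, h3⟩ := pow_unip h p
  have hp : (p : K) = 0 := CharP.cast_eq_zero K p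
  rw [hp, zero_mul] at h0 h1 h2 h3
  rw [add_zero] at h0 h3
  exact ext2 (by rw [h0, one_00]) (by rw [h1, one_01]) (by rw [h2, one_10]) (by rw [h3, one_11])

/-- Elements of prime power order prime to the characteristic which are not of order at most two
are regular semisimple. -/
theorem regular_of_pel {l : ℕ} [Fact l.Prime] [Fact p.Prime] (hlp : l ≠ p)
    {z : SpecialLinearGroup (Fin 2) K} (hz : Pel l z) (hz2 : z * z ≠ 1) : t2 z ^ 2 ≠ 4 := by
  intro h
  have h1 : t2 (z * z) = 2 := by
    have e0 := sq_00 z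
    have e3 := sq_11 z
    rw [t2, e0, e3]
    rw [t2] at h ⊢
    linear_combination h
  have h2 := pow_char (p := p) h1
  apply hz2
  obtain ⟨n, hn⟩ := hz
  have h3 : (z * z) ^ l ^ n = 1 := by
    rw [← pow_two, ← pow_mul, mul_comm, pow_mul, hn, one_pow]
  have h4 := Nat.dvd_gcd (orderOf_dvd_of_pow_eq_one h2) (orderOf_dvd_of_pow_eq_one h3)
  have h5 : Nat.Coprime p (l ^ n) := by
    apply Nat.Coprime.pow_right
    rw [Nat.coprime_primes Fact.out Fact.out]
    exact hlp.symm
  rw [h5] at h4
  exact orderOf_eq_one_iff.mp (Nat.dvd_one.mp h4)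

section Main

variable {E G : Type*} [Group E] [Group G]

theorem comm_of_cyclic (f : E →* G) (hk : f.ker ≤ center E) {C : Subgroup E} {Z : Subgroup G}
    (hZ : IsCyclic Z) (hCZ : ∀ c ∈ C, f c ∈ Z) : ∀ a ∈ C, ∀ b ∈ C, a * b = b * a := by
  let g : C →* Z := (f.comp C.subtype).codRestrict Z fun c => hCZ c c.2
  have hg : g.ker ≤ center C := by
    intro x hx
    have h1 : f (x : E) = 1 := congrArg Subtype.val (MonoidHom.mem_ker.mp hx)
    rw [mem_center_iff]
    intro y
    exact Subtype.ext (mem_center_iff.mp (hk h1) y)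
  have h3 := commutative_of_cyclic_center_quotient g hg
  intro a ha b hb
  exact congrArg Subtype.val (h3 ⟨a, ha⟩ ⟨b, hb⟩)

theorem eq_one_of_comm {S : Subgroup E} {a : E} (h : ∀ x ∈ S, ∀ y ∈ S, x * y = y * x)
    (ha : a ∈ ⁅S, S⁆) : a = 1 := by
  have h1 : ⁅S, S⁆ ≤ ⊥ := by
    rw [commutator_le]
    intro x hx y hy
    rw [commutatorElement_def, h x hx y hy, mem_bot]
    group
  exact mem_bot.mp (h1 ha)

/-- `±1` -/
def pm1 (K : Type*) [Field K] : Subgroup (SpecialLinearGroup (Fin 2) K) where
  carrier := {x | x = 1 ∨ x = neg1}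
  one_mem' := Or.inl rfl
  mul_mem' := by
    rintro _ _ (rfl | rfl) (rfl | rfl)
    · left; rw [one_mul]
    · right; rw [one_mul]
    · right; rw [mul_one]
    · left; exact neg1_sq
  inv_mem' := by
    rintro _ (rfl | rfl)
    · left; rw [inv_one]
    · right; exact inv_eq_of_mul_eq_one_left neg1_sq

theorem pm1_comm {x : SpecialLinearGroup (Fin 2) K} (hx : x ∈ pm1 K)
    (g : SpecialLinearGroup (Fin 2) K) : x * g = g * x := by
  rcases hx with rfl | rfl
  · rw [one_mul, mul_one]
  · exact neg1_comm g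

/-- An element which commutes with `z` and with `y`, where `y z = - z y`. -/
theorem eq_of_comm_both {z y c : SpecialLinearGroup (Fin 2) K} (h2 : (2 : K) ≠ 0)
    (ht : t2 z ^ 2 ≠ 4) (hy : y * z = neg1 * (z * y)) (hcz : c * z = z * c)
    (hcy : c * y = y * c) : c = 1 ∨ c = neg1 := by
  obtain ⟨α, β, hc⟩ := exists_comb ht hcz
  obtain ⟨c0, c1, c2, c3⟩ := hc
  have hb : β = 0 := by
    by_contra hb
    have h2b : 2 * β ≠ 0 := mul_ne_zero h2 hb
    have e00 : (y * z) 0 0 = (neg1 * (z * y) : SpecialLinearGroup (Fin 2) K) 0 0 := by rw [hy]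
    have e01 : (y * z) 0 1 = (neg1 * (z * y) : SpecialLinearGroup (Fin 2) K) 0 1 := by rw [hy]
    rw [mul_00 y z, mul_00 neg1, neg1_00, neg1_01] at e00
    rw [mul_01 y z, mul_01 neg1, neg1_00, neg1_01] at e01
    have f00 : (c * y) 0 0 = (y * c) 0 0 := by rw [hcy]
    have f01 : (c * y) 0 1 = (y * c) 0 1 := by rw [hcy]
    rw [mul_00, mul_00, c0, c1, c2] at f00
    rw [mul_01, mul_01, c0, c1, c3] at f01
    have g00 : 2 * β * (z * y) 0 0 = 0 := by
      rw [mul_00 z y] at e00 ⊢
      linear_combination f00 + β * e00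
    have g01 : 2 * β * (z * y) 0 1 = 0 := by
      rw [mul_01 z y] at e01 ⊢
      linear_combination f01 + β * e01
    have k00 := (mul_eq_zero.mp g00).resolve_left h2b
    have k01 := (mul_eq_zero.mp g01).resolve_left h2b
    have hd := det_two (z * y)
    rw [k00, k01] at hd
    simp at hd
  apply eq_of_sq_one h2
  rw [hb] at c0 c1 c2 c3
  rw [zero_mul] at c0 c1 c2 c3
  rw [add_zero] at c0 c3
  have hd := det_two c
  rw [c0, c1, c2, c3] at hd
  apply ext2
  · rw [mul_00, c0, c1, c2, one_00]; linear_combination hd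
  · rw [mul_01, c0, c1, c3, one_01]; ring
  · rw [mul_10, c0, c2, c3, one_10]; ring
  · rw [mul_11, c1, c2, c3, one_11]; linear_combination hd

theorem inv_anti {z y : SpecialLinearGroup (Fin 2) K} (hy : y * z = neg1 * (z * y)) :
    y⁻¹ * z = neg1 * (z * y⁻¹) := by
  have h1 : z = y⁻¹ * (neg1 * (z * y)) := by rw [← hy]; group
  have h2 : neg1 * (z * y⁻¹) = neg1 * (y⁻¹ * (neg1 * z)) := by
    congr 1
    nth_rewrite 1 [h1]
    group
  rw [h2]
  calc y⁻¹ * z = y⁻¹ * ((neg1 * neg1) * z) := by rw [neg1_sq, one_mul]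
    _ = (y⁻¹ * neg1) * (neg1 * z) := by group
    _ = (neg1 * y⁻¹) * (neg1 * z) := by rw [neg1_comm y⁻¹]
    _ = _ := by group

variable [Finite E] [Finite K] [Fact p.Prime]

/-- **Perfect central extensions of `SL(2, K)`**: the kernel is a `p`-group, `p = char K`. -/
theorem coprime_two (hperf : commutator E = ⊤) (f : E →* SpecialLinearGroup (Fin 2) K)
    (hk : f.ker ≤ center E) {l : ℕ} [Fact l.Prime] (hlp : l ≠ p) {a : E} (ha : f a = 1)
    (hal : Pel l a) : a = 1 := by
  obtain ⟨S, hS⟩ := (isPGroup_zpowers_of_pel hal).exists_le_sylow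
  have haS : a ∈ (S : Subgroup E) := hS (mem_zpowers a)
  have hac : a ∈ center E := hk ha
  have hcomm : a ∈ ⁅(S : Subgroup E), (S : Subgroup E)⁆ :=
    mem_commutator_of_central hperf S.not_dvd_index hac haS hal
  have hSbar : IsPGroup l ((S : Subgroup E).map f) := S.2.map f
  have hfinb : Finite ((S : Subgroup E).map f) := inferInstance
  by_cases hl2 : l = 2
  · subst hl2
    have h2 : (2 : K) ≠ 0 := by
      intro h0
      have h1 : ((2 : ℕ) : K) = 0 := by exact_mod_cast h0
      rw [CharP.cast_eq_zero_iff K p] at h1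
      exact hlp ((Nat.prime_dvd_prime_iff_eq Fact.out Fact.out).mp h1).symm
    by_cases hall : ∀ s ∈ (S : Subgroup E), f s ∈ pm1 K
    · refine eq_one_of_comm (comm_of_cyclic f hk (Z := zpowers (neg1 : SpecialLinearGroup (Fin 2) K))
        inferInstance ?_) hcomm
      intro s hs
      rcases hall s hs with h | h
      · rw [h]; exact Subgroup.one_mem _
      · rw [h]; exact mem_zpowers _
    · push Not at hall
      obtain ⟨s₀, hs₀, hs₀'⟩ := hall
      set T : Subgroup (SpecialLinearGroup (Fin 2) K) := (S : Subgroup E).map f with hT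
      let N : Subgroup T := (pm1 K).subgroupOf T
      have hN : N.Normal := by
        refine ⟨fun n hn g => ?_⟩
        have h1 : (n : SpecialLinearGroup (Fin 2) K) ∈ pm1 K := hn
        have h2 : g * n * g⁻¹ = n := by
          apply Subtype.ext
          change (g : SpecialLinearGroup (Fin 2) K) * n * (g : SpecialLinearGroup (Fin 2) K)⁻¹ = n
          rw [← pm1_comm h1, mul_inv_cancel_right]
        rw [h2]
        exact hn
      have hQ : IsPGroup 2 (T ⧸ N) := hSbar.to_quotient N
      have hQnt : Nontrivial (T ⧸ N) := by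
        refine ⟨(QuotientGroup.mk ⟨f s₀, ⟨s₀, hs₀, rfl⟩⟩ : T ⧸ N), 1, ?_⟩
        intro h
        rw [QuotientGroup.eq_one_iff] at h
        exact hs₀' h
      have hcn : Nontrivial (center (T ⧸ N)) := hQ.center_nontrivial
      have hcard : 2 ∣ Nat.card (center (T ⧸ N)) := by
        rcases (hQ.to_subgroup (center (T ⧸ N))).card_eq_or_dvd with h | h
        · exfalso
          have := (Nat.card_eq_one_iff_unique.mp h).1
          exact not_subsingleton _ this
        · exact h
      obtain ⟨c, hc⟩ := exists_prime_orderOf_dvd_card' 2 hcard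
      obtain ⟨⟨z, hzT⟩, hz⟩ := QuotientGroup.mk_surjective (c : T ⧸ N)
      have hz1 : z ∉ pm1 K := by
        intro h
        have h1 : ((⟨z, hzT⟩ : T) : T ⧸ N) = 1 := (QuotientGroup.eq_one_iff _).mpr h
        rw [hz] at h1
        have h2 : c = 1 := Subtype.ext h1
        rw [h2, orderOf_one] at hc
        omega
      have hzz : z * z = neg1 := by
        have h1 : (((⟨z, hzT⟩ : T) * ⟨z, hzT⟩ : T) : T ⧸ N) = 1 := by
          rw [QuotientGroup.mk_mul, hz]
          have h2 : c ^ orderOf c = 1 := pow_orderOf_eq_one c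
          rw [hc, pow_two] at h2
          exact congrArg Subtype.val h2
        rw [QuotientGroup.eq_one_iff] at h1
        have h1' : z * z ∈ pm1 K := h1
        rcases h1' with h3 | h3
        · exact absurd (eq_of_sq_one h2 h3) hz1
        · exact h3
      have htz : t2 z = 0 := t2_of_sq hzz
      have htz4 : t2 z ^ 2 ≠ 4 := by
        rw [htz]
        intro h
        apply h2
        have : (2 : K) * 2 = 0 := by linear_combination -h
        rcases mul_eq_zero.mp this with h | h <;> exact h
      have hdich : ∀ s ∈ (S : Subgroup E), f s * z = z * f s ∨ f s * z = neg1 * (z * f s) := by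
        intro s hs
        have h1 := mem_center_iff.mp c.2 (QuotientGroup.mk ⟨f s, ⟨s, hs, rfl⟩⟩ : T ⧸ N)
        rw [← hz, ← QuotientGroup.mk_mul, ← QuotientGroup.mk_mul, QuotientGroup.eq] at h1
        have h3 : (f s * z)⁻¹ * (z * f s) ∈ pm1 K := h1
        have h3' : (f s * z)⁻¹ * (z * f s) = 1 ∨ (f s * z)⁻¹ * (z * f s) = neg1 := h3
        rcases h3' with h3 | h3
        · left
          exact inv_mul_eq_one.mp h3
        · right
          have h4 : z * f s = f s * z * neg1 := by
            rw [← h3]; group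
          rw [h4, ← mul_assoc, neg1_comm, mul_assoc, neg1_sq, mul_one]
      let C : Subgroup E := (S : Subgroup E) ⊓ (centralizer {z}).comap f
      have hCz : ∀ c ∈ C, f c * z = z * f c := by
        intro c hc
        exact mem_centralizer_singleton_iff.mp hc.2
      have hCcomm : ∀ a ∈ C, ∀ b ∈ C, a * b = b * a :=
        comm_of_cyclic f hk (cyclic_centralizer htz4) fun c hc => hc.2
      by_cases hCS : ∀ s ∈ (S : Subgroup E), f s * z = z * f s
      · refine eq_one_of_comm (fun x hx y hy => hCcomm x ⟨hx, ?_⟩ y ⟨hy, ?_⟩) hcomm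
        · exact mem_centralizer_singleton_iff.mpr (hCS x hx)
        · exact mem_centralizer_singleton_iff.mpr (hCS y hy)
      · push Not at hCS
        obtain ⟨y, hyS, hyz⟩ := hCS
        have hyz' := (hdich y hyS).resolve_left hyz
        have hinv := inv_anti hyz'
        obtain ⟨c, hc, hac'⟩ := commutator_index_two (C := C) (y := y) hCcomm (by
          intro c hc
          refine ⟨S.mul_mem (S.mul_mem hyS hc.1) (S.inv_mem hyS), ?_⟩
          refine mem_centralizer_singleton_iff.mpr ?_
          rw [map_mul, map_mul, map_inv]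
          calc f y * f c * (f y)⁻¹ * z = f y * f c * ((f y)⁻¹ * z) := by group
            _ = f y * f c * (neg1 * (z * (f y)⁻¹)) := by rw [hinv]
            _ = f y * (f c * neg1) * (z * (f y)⁻¹) := by group
            _ = f y * (neg1 * f c) * (z * (f y)⁻¹) := by rw [neg1_comm (f c)]
            _ = f y * neg1 * (f c * z) * (f y)⁻¹ := by group
            _ = f y * neg1 * (z * f c) * (f y)⁻¹ := by rw [hCz c hc]
            _ = (neg1 * f y) * (z * f c) * (f y)⁻¹ := by rw [neg1_comm (f y)]
            _ = neg1 * (f y * z) * f c * (f y)⁻¹ := by group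
            _ = neg1 * (neg1 * (z * f y)) * f c * (f y)⁻¹ := by rw [hyz']
            _ = (neg1 * neg1) * (z * (f y * f c * (f y)⁻¹)) := by group
            _ = z * (f y * f c * (f y)⁻¹) := by rw [neg1_sq, one_mul]) (by
          intro s hs
          rcases hdich s hs with h | h
          · exact Or.inl ⟨hs, mem_centralizer_singleton_iff.mpr h⟩
          · right
            refine ⟨s * y⁻¹, ⟨S.mul_mem hs (S.inv_mem hyS),
              mem_centralizer_singleton_iff.mpr ?_⟩, by group⟩
            rw [map_mul, map_inv]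
            calc f s * (f y)⁻¹ * z = f s * ((f y)⁻¹ * z) := by group
              _ = f s * (neg1 * (z * (f y)⁻¹)) := by rw [hinv]
              _ = (f s * neg1) * (z * (f y)⁻¹) := by group
              _ = (neg1 * f s) * (z * (f y)⁻¹) := by rw [neg1_comm (f s)]
              _ = neg1 * (f s * z) * (f y)⁻¹ := by group
              _ = neg1 * (neg1 * (z * f s)) * (f y)⁻¹ := by rw [h]
              _ = (neg1 * neg1) * (z * (f s * (f y)⁻¹)) := by group
              _ = z * (f s * (f y)⁻¹) := by rw [neg1_sq, one_mul]) hcomm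
        have h3 : f c * f y = f y * f c := by
          have h4 : f y * f c * (f y)⁻¹ * (f c)⁻¹ = 1 := by
            rw [← map_mul, ← map_inv, ← map_mul, ← map_inv, ← map_mul, ← hac', ha]
          have h5 : f y * f c * (f y)⁻¹ = f c := mul_inv_eq_one.mp h4
          exact (mul_inv_eq_iff_eq_mul.mp h5).symm
        rcases eq_of_comm_both h2 htz4 hyz' (hCz c hc) h3 with h4 | h4
        · have h5 := mem_center_iff.mp (hk (MonoidHom.mem_ker.mpr h4)) y
          rw [hac', h5]
          group
        · have h5 : f y * f y = neg1 := sq_of_t2 (t2_conj_neg htz hyz' h2)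
          have h6 : c⁻¹ * (y * y) ∈ f.ker := by
            rw [MonoidHom.mem_ker, map_mul, map_inv, map_mul, h5, h4, inv_mul_cancel]
          have h7 := mem_center_iff.mp (hk h6) y
          have h8 : y * c⁻¹ = c⁻¹ * y := by
            have h9 : y * c⁻¹ * (y * y) = c⁻¹ * y * (y * y) := by
              calc y * c⁻¹ * (y * y) = y * (c⁻¹ * (y * y)) := by group
                _ = c⁻¹ * (y * y) * y := h7
                _ = c⁻¹ * y * (y * y) := by group
            exact mul_right_cancel h9
          have h9 : y * c = c * y := by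
            calc y * c = c * (c⁻¹ * y) * c := by group
              _ = c * (y * c⁻¹) * c := by rw [h8]
              _ = c * y := by group
          rw [hac', h9]
          group
  · by_cases hnt : Nontrivial ((S : Subgroup E).map f)
    · have hcn : Nontrivial (center ((S : Subgroup E).map f)) := hSbar.center_nontrivial
      obtain ⟨z, hz⟩ := exists_ne (1 : center ((S : Subgroup E).map f))
      let z' : SpecialLinearGroup (Fin 2) K := ((z : (S : Subgroup E).map f) :
        SpecialLinearGroup (Fin 2) K)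
      have hz' : z' ≠ 1 := fun h => hz (Subtype.ext (Subtype.ext h))
      have hzl : Pel l z' := by
        obtain ⟨n, hn⟩ := hSbar (z : (S : Subgroup E).map f)
        exact ⟨n, congrArg Subtype.val hn⟩
      have hzz : z' * z' ≠ 1 := by
        intro h
        apply hz'
        obtain ⟨n, hn⟩ := hzl
        have h4 := Nat.dvd_gcd (orderOf_dvd_of_pow_eq_one (show z' ^ 2 = 1 by rw [pow_two, h]))
          (orderOf_dvd_of_pow_eq_one hn)
        have h5 : Nat.Coprime 2 (l ^ n) := by
          apply Nat.Coprime.pow_right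
          rw [Nat.coprime_primes Nat.prime_two Fact.out]
          exact fun h => hl2 h.symm
        rw [h5] at h4
        exact orderOf_eq_one_iff.mp (Nat.dvd_one.mp h4)
      refine eq_one_of_comm (comm_of_cyclic f hk
        (cyclic_centralizer (regular_of_pel hlp hzl hzz)) ?_) hcomm
      intro s hs
      rw [mem_centralizer_singleton_iff]
      exact congrArg Subtype.val (mem_center_iff.mp z.2 ⟨f s, ⟨s, hs, rfl⟩⟩)
    · refine eq_one_of_comm (fun x hx y _ => ?_) hcomm
      have h1 : Subsingleton ((S : Subgroup E).map f) := not_nontrivial_iff_subsingleton.mp hnt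
      have h2 : (⟨f x, ⟨x, hx, rfl⟩⟩ : (S : Subgroup E).map f) = 1 := Subsingleton.elim _ _
      have h3 : f x = 1 := congrArg Subtype.val h2
      exact (mem_center_iff.mp (hk (MonoidHom.mem_ker.mpr h3)) y).symm

end Main

end Vale.Agent.P180.R2.H589.Sch
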