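import Vale.Agent.P180.R2.H589.Sch.Sheets
import Vale.Agent.P180.R2.H589.Sch.Blk
import Vale.Agent.P180.R2.H589.Sch.Two

/-!
P180: perfect central extensions of `SL(n, K)`, `n ≥ 2`: the kernel is a `p`-group, `p` the
characteristic.
-/

set_option linter.all false

namespace Vale.Agent.P180.R2.H589.Sch

open Subgroup Module

variable {K : Type*} [Field K] [Finite K] {p : ℕ} [Fact p.Prime] [CharP K p]

/-- A group generated by `p`-elements which is a central extension of a perfect group by a group of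
order prime to `p` is perfect. -/
theorem perfect_of_gen {E G : Type*} [Group E] [Group G] [Finite E] (f : E →* G)
    (hf : Function.Surjective f) (hk : f.ker ≤ center E) (hp : ¬ p ∣ Nat.card f.ker)
    (hgen : closure {x : E | Pel p x} = ⊤) (hG : commutator G = ⊤) : commutator E = ⊤ := by
  have hmap : (commutator E).map f = ⊤ := by
    rw [commutator_def, map_commutator, ← MonoidHom.range_eq_map, MonoidHom.range_eq_top.mpr hf,
      ← commutator_def, hG]
  rw [eq_top_iff, ← hgen, closure_le]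
  rintro x ⟨n, hn⟩
  have h1 : f x ∈ (commutator E).map f := by rw [hmap]; exact mem_top _
  obtain ⟨q, hq, hqx⟩ := h1
  have h2 : q⁻¹ * x ∈ f.ker := by
    rw [MonoidHom.mem_ker, map_mul, map_inv, hqx, inv_mul_cancel]
  -- `x ≡ a` modulo the commutator subgroup, `a` of order prime to `p`
  set a := q⁻¹ * x with ha
  have h3 : ∀ y : E, QuotientGroup.mk' (commutator E) y = 1 ↔ y ∈ commutator E := fun y =>
    QuotientGroup.eq_one_iff y
  have h4 : QuotientGroup.mk' (commutator E) x = QuotientGroup.mk' (commutator E) a := by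
    have h5 : x = q * a := by rw [ha]; group
    rw [h5, map_mul, (h3 q).2 hq, one_mul]
  have h5 : (QuotientGroup.mk' (commutator E) a) ^ p ^ n = 1 := by
    rw [← h4, ← map_pow, hn, map_one]
  have h6 : a ^ Nat.card f.ker = 1 := by
    have : (⟨a, h2⟩ : f.ker) ^ Nat.card f.ker = 1 := pow_card_eq_one'
    exact congrArg Subtype.val this
  have h7 : (QuotientGroup.mk' (commutator E) a) ^ Nat.card f.ker = 1 := by
    rw [← map_pow, h6, map_one]
  have h8 := Nat.dvd_gcd (orderOf_dvd_of_pow_eq_one h5) (orderOf_dvd_of_pow_eq_one h7)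
  have h9 : Nat.Coprime (p ^ n) (Nat.card f.ker) := by
    apply Nat.Coprime.pow_left
    rw [(Fact.out : p.Prime).coprime_iff_not_dvd]
    exact hp
  rw [h9] at h8
  have h10 := orderOf_eq_one_iff.mp (Nat.dvd_one.mp h8)
  rw [h10] at h4
  exact (h3 x).1 h4

omit [Fact p.Prime] [CharP K p] in
theorem exists_mu (hq : 4 < Nat.card K) : ∃ a : K, a ≠ 0 ∧ a ^ 2 ≠ 1 ∧ a ^ 3 ≠ 1 := by
  obtain ⟨x, hx⟩ : IsCyclic Kˣ := by infer_instance
  have h1 : orderOf x = Nat.card Kˣ := orderOf_eq_card_of_forall_mem_zpowers hx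
  have h2 : Nat.card K = Nat.card Kˣ + 1 := Nat.card_eq_card_units_add_one K
  have h3 : ∀ m, 0 < m → m < 4 → (x : K) ^ m ≠ 1 := by
    intro m hm hm4 h
    have h4 : x ^ m = 1 := Units.ext (by rw [Units.val_pow_eq_pow_val, h, Units.val_one])
    have h5 := orderOf_le_of_pow_eq_one hm h4
    omega
  exact ⟨x, x.ne_zero, h3 2 (by norm_num) (by norm_num), h3 3 (by norm_num) (by norm_num)⟩

/-- The claim. -/
def CopClaim (n : ℕ) (K : Type*) [Field K] (p : ℕ) : Prop :=
  ∀ (E : Type) [Group E] [Finite E] (f : E →* GS n K), Function.Surjective f →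
    f.ker ≤ center E → ¬ p ∣ Nat.card f.ker → closure {x : E | Pel p x} = ⊤ → f.ker = ⊥

theorem copClaim_two (hq : 4 < Nat.card K) : CopClaim 2 K p := by
  intro E _ _ f hf hk hp hgen
  obtain ⟨a, ha, ha2, -⟩ := exists_mu (K := K) hq
  have hperf := perfect_of_gen f hf hk hp hgen (perfect_sl (by norm_num) ha ha2)
  by_contra hne
  have hc : Nat.card f.ker ≠ 1 := by
    intro h
    exact hne (Subgroup.card_eq_one.mp h)
  obtain ⟨l, hl, hdvd⟩ := Nat.exists_prime_and_dvd hc
  have : Fact l.Prime := ⟨hl⟩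
  have hlp : l ≠ p := by
    rintro rfl
    exact hp hdvd
  obtain ⟨x, hx⟩ := exists_prime_orderOf_dvd_card' l hdvd
  have h1 : (x : E) = 1 := by
    refine coprime_two (p := p) hperf f hk hlp x.2 ⟨1, ?_⟩
    have h2 : x ^ l = 1 := by rw [← hx]; exact pow_orderOf_eq_one x
    rw [pow_one]
    exact congrArg Subtype.val h2
  have h2 : x = 1 := Subtype.ext h1
  rw [h2, orderOf_one] at hx
  exact hl.one_lt.ne hx

section Step

variable {n : ℕ} {E : Type} [Group E] [Finite E] {f : E →* GS (n + 1) K}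

/-- the action -/
abbrev act (f : E →* GS (n + 1) K) : E →* ((Fin (n + 1) → K) ≃ₗ[K] (Fin (n + 1) → K)) :=
  (nat (n + 1) K).comp f

omit [Finite K] [Fact p.Prime] [CharP K p] [Finite E] in
theorem ker_act : (act f).ker = f.ker := by
  ext x
  rw [MonoidHom.mem_ker, MonoidHom.mem_ker, MonoidHom.comp_apply]
  constructor
  · intro h
    exact nat_injective (by rw [h, map_one])
  · intro h
    rw [h, map_one]

variable (hf : Function.Surjective f) (hk : f.ker ≤ center E) (hp : ¬ p ∣ Nat.card f.ker)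

include hf hp

theorem act_cover {B : GS n K} (hn : 1 ≤ n) : ∃ q ∈ Pv (act f) p (o1 n K),
    ∃ h : f q ∈ St n K, blk n K ⟨f q, h⟩ = B := by
  refine tv_induction hn (fun B => ∃ q ∈ Pv (act f) p (o1 n K), ∃ h : f q ∈ St n K,
    blk n K ⟨f q, h⟩ = B) ?_ ?_ ?_ B
  · intro i j hij c
    have hne := (Fin.succ_injective n).ne hij
    obtain ⟨q, hq, hfq⟩ := exists_pel (p := p) hp (tv_pel (p := p) hne c) (hf _)
    have h1 : f q ∈ St n K := by rw [hfq]; exact tv_mem_St hij c
    refine ⟨q, subset_closure ⟨hq, h1⟩, h1, ?_⟩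
    rw [← blk_tv hij c]
    congr 1
    exact Subtype.ext hfq
  · refine ⟨1, Subgroup.one_mem _, by rw [map_one]; exact Subgroup.one_mem _, ?_⟩
    rw [← map_one (blk n K)]
    congr 1
    exact Subtype.ext (map_one f)
  · rintro A B ⟨q, hq, h, rfl⟩ ⟨q', hq', h', rfl⟩
    refine ⟨q * q', Subgroup.mul_mem _ hq hq', by rw [map_mul]; exact Subgroup.mul_mem _ h h', ?_⟩
    rw [← (blk n K).map_mul]
    congr 1
    exact Subtype.ext (map_mul f q q')

include hk

theorem act_stab (hn : 1 ≤ n) {x : E} (hx : f x ∈ St n K) :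
    ∃ q ∈ Pv (act f) p (o1 n K), ∃ a ∈ f.ker, x = q * a := by
  obtain ⟨q₁, hq₁, h₁, hb⟩ := act_cover (p := p) hf hp (B := blk n K ⟨f x, hx⟩) hn
  have h2 : f (q₁⁻¹ * x) ∈ St n K := by
    rw [map_mul, map_inv]
    exact Subgroup.mul_mem _ (Subgroup.inv_mem _ h₁) hx
  have h3 : blk n K ⟨f (q₁⁻¹ * x), h2⟩ = 1 := by
    have h4 : (⟨f (q₁⁻¹ * x), h2⟩ : St n K) = (⟨f q₁, h₁⟩ : St n K)⁻¹ * ⟨f x, hx⟩ :=
      Subtype.ext (by
        change f (q₁⁻¹ * x) = (f q₁)⁻¹ * f x
        rw [map_mul, map_inv])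
    rw [h4, map_mul, map_inv, hb, inv_mul_cancel]
  obtain ⟨φ, hφ⟩ := tv_of_blk h3
  have h4 : Pel p (f (q₁⁻¹ * x)) := by
    refine ⟨1, nat_injective ?_⟩
    rw [map_pow, map_one, pow_one]
    exact hφ.pow_char
  obtain ⟨q₂, hq₂, hfq₂⟩ := exists_pel (p := p) hp h4 (hf _)
  have h5 : q₂ ∈ Pv (act f) p (o1 n K) := by
    refine subset_closure ⟨hq₂, ?_⟩
    change f q₂ ∈ St n K
    rw [hfq₂]
    exact h2
  refine ⟨q₁ * q₂, Subgroup.mul_mem _ hq₁ h5, q₂⁻¹ * (q₁⁻¹ * x), ?_, by group⟩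
  rw [MonoidHom.mem_ker, map_mul, map_inv, hfq₂, inv_mul_cancel]

theorem act_bot (hn : 1 ≤ n) (ih : CopClaim n K p) {x : E} (hx : x ∈ Pv (act f) p (o1 n K))
    (hfx : f x = 1) : x = 1 := by
  set P : Subgroup E := Pv (act f) p (o1 n K) with hP
  have hPst : ∀ y ∈ P, f y ∈ St n K := fun y hy => pv_fix (f := act f) hy
  let g : P →* St n K := (f.comp P.subtype).codRestrict (St n K) fun y => hPst y y.2
  let f' : P →* GS n K := (blk n K).comp g
  have hka : (act f).ker ≤ center E := by rw [ker_act]; exact hk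
  have hpa : ¬ p ∣ Nat.card (act f).ker := by rw [ker_act]; exact hp
  let N : Subgroup P :=
    { carrier := {y | Pel p (y : E) ∧ act f y ∈ XC (K := K) (o1 n K)}
      one_mem' := ⟨pel_one, by
        change act f 1 ∈ XC (K := K) (o1 n K)
        rw [map_one]; exact Subgroup.one_mem _⟩
      mul_mem' := by
        rintro y z ⟨h1, h2⟩ ⟨h3, h4⟩
        refine ⟨pel_mul hka hpa (isPGroup_XC p (o1 n K)) h1 h3 h2 h4, ?_⟩
        change act f ((y : E) * z) ∈ XC (K := K) (o1 n K)
        rw [map_mul]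
        exact Subgroup.mul_mem _ h2 h4
      inv_mem' := by
        rintro y ⟨h1, h2⟩
        refine ⟨h1.inv, ?_⟩
        change act f (y : E)⁻¹ ∈ XC (K := K) (o1 n K)
        rw [map_inv]
        exact Subgroup.inv_mem _ h2 }
  have hN : N.Normal := by
    refine ⟨?_⟩
    rintro y ⟨h1, φ, hφ⟩ z
    refine ⟨h1.conj (z : E), ?_⟩
    change act f ((z : E) * y * (z : E)⁻¹) ∈ XC (K := K) (o1 n K)
    rw [map_mul, map_mul, map_inv]
    have h2 := hφ.conj (act f z)
    have h3 : act f z (o1 n K) = o1 n K := hPst z z.2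
    rw [h3] at h2
    exact ⟨_, h2⟩
  have hNk : N ≤ f'.ker := by
    rintro y ⟨_, φ, hφ⟩
    exact blk_of_tv hφ
  let F : P ⧸ N →* GS n K := QuotientGroup.lift N f' hNk
  have hF : ∀ y : P, F (QuotientGroup.mk' N y) = f' y := fun y => rfl
  have hFs : Function.Surjective F := by
    intro B
    obtain ⟨q, hq, h, hb⟩ := act_cover (p := p) hf hp (B := B) hn
    exact ⟨QuotientGroup.mk' N ⟨q, hq⟩, hb⟩
  -- elements of the kernel
  have hker : ∀ y : P, f' y = 1 → ∃ a : P, f (a : E) = 1 ∧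
      QuotientGroup.mk' N y = QuotientGroup.mk' N a := by
    intro y hy
    obtain ⟨φ, hφ⟩ := tv_of_blk (show blk n K (g y) = 1 from hy)
    have h4 : Pel p (f (y : E)) := by
      refine ⟨1, nat_injective ?_⟩
      rw [map_pow, map_one, pow_one]
      exact hφ.pow_char
    obtain ⟨z, hz, hfz⟩ := exists_pel (p := p) hp h4 (hf _)
    have hzP : z ∈ P := by
      refine subset_closure ⟨hz, ?_⟩
      change f z ∈ St n K
      rw [hfz]
      exact hPst y y.2
    refine ⟨⟨z, hzP⟩⁻¹ * y, ?_, ?_⟩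
    · change f (z⁻¹ * y) = 1
      rw [map_mul, map_inv, hfz, inv_mul_cancel]
    · have hzN : (⟨z, hzP⟩ : P) ∈ N := by
        refine ⟨hz, φ, ?_⟩
        change IsTv (nat (n + 1) K (f z)) φ (o1 n K)
        rw [hfz]
        exact hφ
      have h5 : QuotientGroup.mk' N ⟨z, hzP⟩ = 1 := (QuotientGroup.eq_one_iff _).mpr hzN
      rw [map_mul, map_inv, h5, inv_one, one_mul]
  have hFk : F.ker ≤ center (P ⧸ N) := by
    intro w hw
    obtain ⟨y, rfl⟩ := QuotientGroup.mk'_surjective N w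
    obtain ⟨a, ha, hya⟩ := hker y hw
    rw [hya, mem_center_iff]
    intro v
    obtain ⟨v, rfl⟩ := QuotientGroup.mk'_surjective N v
    rw [← map_mul, ← map_mul]
    congr 1
    exact Subtype.ext (mem_center_iff.mp (hk (MonoidHom.mem_ker.mpr ha)) v)
  have hFp : ¬ p ∣ Nat.card F.ker := by
    intro hd
    obtain ⟨w, hw⟩ := exists_prime_orderOf_dvd_card' p hd
    obtain ⟨y, hy⟩ := QuotientGroup.mk'_surjective N (w : P ⧸ N)
    obtain ⟨a, ha, hya⟩ := hker y (by rw [← hF, hy]; exact w.2)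
    have h1 : (QuotientGroup.mk' N a) ^ p = 1 := by
      rw [← hya, hy]
      have : w ^ p = 1 := by rw [← hw]; exact pow_orderOf_eq_one w
      exact congrArg Subtype.val this
    rw [← map_pow] at h1
    have h2 : a ^ p ∈ N := (QuotientGroup.eq_one_iff _).mp h1
    have h3 : Pel p (a : E) := by
      obtain ⟨m, hm⟩ := h2.1
      refine ⟨m + 1, ?_⟩
      rw [pow_succ', pow_mul]
      exact hm
    have h4 : (a : E) = 1 := eq_one_of_pel_of_mem hp (MonoidHom.mem_ker.mpr ha) h3
    have h5 : a = 1 := Subtype.ext h4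
    rw [h5, map_one] at hya
    have h6 : w = 1 := Subtype.ext (by rw [← hy, hya]; rfl)
    rw [h6, orderOf_one] at hw
    exact (Fact.out : p.Prime).one_lt.ne hw
  have hFgen : closure {w : P ⧸ N | Pel p w} = ⊤ := by
    rw [eq_top_iff]
    rintro w -
    obtain ⟨⟨y, hy⟩, rfl⟩ := QuotientGroup.mk'_surjective N w
    have key : ∀ (y : E) (hy : y ∈ closure {x | Pel p x ∧ act f x (o1 n K) = o1 n K}),
        QuotientGroup.mk' N ⟨y, hy⟩ ∈ closure {w : P ⧸ N | Pel p w} := by
      intro y hy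
      induction hy using closure_induction with
      | mem x hx =>
        refine subset_closure ?_
        obtain ⟨m, hm⟩ := hx.1
        refine ⟨m, ?_⟩
        rw [← map_pow, ← map_one (QuotientGroup.mk' N)]
        congr 1
        exact Subtype.ext hm
      | one =>
        have : (⟨1, Subgroup.one_mem _⟩ : P) = 1 := rfl
        rw [this, map_one]
        exact Subgroup.one_mem _
      | mul x y hx hy ihx ihy =>
        have : (⟨x * y, Subgroup.mul_mem _ hx hy⟩ : P) = ⟨x, hx⟩ * ⟨y, hy⟩ := rfl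
        rw [this, map_mul]
        exact Subgroup.mul_mem _ ihx ihy
      | inv x hx ihx =>
        have : (⟨x⁻¹, Subgroup.inv_mem _ hx⟩ : P) = ⟨x, hx⟩⁻¹ := rfl
        rw [this, map_inv]
        exact Subgroup.inv_mem _ ihx
    exact key y hy
  have hbot := ih (P ⧸ N) F hFs hFk hFp hFgen
  have h1 : QuotientGroup.mk' N ⟨x, hx⟩ ∈ F.ker := by
    rw [MonoidHom.mem_ker, hF]
    change blk n K ⟨f x, _⟩ = 1
    rw [← map_one (blk n K)]
    congr 1
    exact Subtype.ext hfx
  rw [hbot, mem_bot] at h1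
  have h2 : (⟨x, hx⟩ : P) ∈ N := (QuotientGroup.eq_one_iff _).mp h1
  exact eq_one_of_pel_of_mem hp (MonoidHom.mem_ker.mpr hfx) h2.1

end Step

theorem copClaim_succ {n : ℕ} (hn : 2 ≤ n) (hq : 4 < Nat.card K) (ih : CopClaim n K p) :
    CopClaim (n + 1) K p := by
  intro E _ _ f hf hk hp hgen
  have hka : (act f).ker ≤ center E := by rw [ker_act]; exact hk
  have hpa : ¬ p ∣ Nat.card (act f).ker := by rw [ker_act]; exact hp
  have h := sheets (f := act f) (p := p) hka hpa (fun e φ a he => by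
    obtain ⟨g, hg⟩ := nat_tv he
    obtain ⟨y, rfl⟩ := hf g
    exact ⟨y, hg⟩) (by rw [Module.finrank_fin_fun]; omega) hq hgen (o1_ne (n := n)) (by
    intro x hx
    obtain ⟨q, hq, a, ha, h⟩ := act_stab (p := p) hf hk hp (by omega) (x := x) hx
    exact ⟨q, hq, a, by rw [ker_act]; exact ha, h⟩) (by
    intro x hx hfx
    exact act_bot hf hk hp (by omega) ih hx (MonoidHom.mem_ker.mp (by
      rw [← ker_act]; exact hfx)))
  rwa [ker_act] at h

theorem copClaim {n : ℕ} (hn : 2 ≤ n) (hq : 4 < Nat.card K) : CopClaim n K p := by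
  induction n, hn using Nat.le_induction with
  | base => exact copClaim_two hq
  | succ n hn ih => exact copClaim_succ hn hq ih

end Vale.Agent.P180.R2.H589.Sch
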