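import Vale.Agent.P180.R2.H589.Sch.Gen
import Mathlib.LinearAlgebra.Matrix.SpecialLinearGroup
import Mathlib.FieldTheory.IsAlgClosed.AlgebraicClosure
import Mathlib.RingTheory.IntegralDomain

/-!
P180: centralisers in `SL(2, K)` of regular semisimple elements are cyclic.
-/

set_option linter.all false

namespace Vale.Agent.P180.R2.H589.Sch

open Subgroup Matrix

variable {K : Type*} [Field K]

theorem det_two (z : SpecialLinearGroup (Fin 2) K) : z 0 0 * z 1 1 - z 0 1 * z 1 0 = 1 := by
  have := z.2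
  rwa [Matrix.det_fin_two] at this

/-- trace -/
def t2 (z : SpecialLinearGroup (Fin 2) K) : K := z 0 0 + z 1 1

theorem mul_00 (g h : SpecialLinearGroup (Fin 2) K) :
    (g * h) 0 0 = g 0 0 * h 0 0 + g 0 1 * h 1 0 := by
  rw [SpecialLinearGroup.coe_mul, Matrix.mul_apply, Fin.sum_univ_two]

theorem mul_01 (g h : SpecialLinearGroup (Fin 2) K) :
    (g * h) 0 1 = g 0 0 * h 0 1 + g 0 1 * h 1 1 := by
  rw [SpecialLinearGroup.coe_mul, Matrix.mul_apply, Fin.sum_univ_two]

theorem mul_10 (g h : SpecialLinearGroup (Fin 2) K) :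
    (g * h) 1 0 = g 1 0 * h 0 0 + g 1 1 * h 1 0 := by
  rw [SpecialLinearGroup.coe_mul, Matrix.mul_apply, Fin.sum_univ_two]

theorem mul_11 (g h : SpecialLinearGroup (Fin 2) K) :
    (g * h) 1 1 = g 1 0 * h 0 1 + g 1 1 * h 1 1 := by
  rw [SpecialLinearGroup.coe_mul, Matrix.mul_apply, Fin.sum_univ_two]

theorem ext2 {g h : SpecialLinearGroup (Fin 2) K} (h0 : g 0 0 = h 0 0) (h1 : g 0 1 = h 0 1)
    (h2 : g 1 0 = h 1 0) (h3 : g 1 1 = h 1 1) : g = h := by
  apply SpecialLinearGroup.ext
  intro i j
  fin_cases i <;> fin_cases j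
  · exact h0
  · exact h1
  · exact h2
  · exact h3

/-- `g = a + b z` -/
def IsComb (z g : SpecialLinearGroup (Fin 2) K) (a b : K) : Prop :=
  g 0 0 = a + b * z 0 0 ∧ g 0 1 = b * z 0 1 ∧ g 1 0 = b * z 1 0 ∧ g 1 1 = a + b * z 1 1

theorem nonscalar {z : SpecialLinearGroup (Fin 2) K} (ht : t2 z ^ 2 ≠ 4) :
    ¬ (z 0 1 = 0 ∧ z 1 0 = 0 ∧ z 0 0 = z 1 1) := by
  rintro ⟨h1, h2, h3⟩
  apply ht
  have h4 := det_two z
  rw [h1, h3, zero_mul, sub_zero] at h4
  rw [t2, h3]
  linear_combination 4 * h4

theorem exists_comb {z g : SpecialLinearGroup (Fin 2) K} (ht : t2 z ^ 2 ≠ 4)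
    (hg : g * z = z * g) : ∃ a b, IsComb z g a b := by
  have e0 : g 0 0 * z 0 0 + g 0 1 * z 1 0 = z 0 0 * g 0 0 + z 0 1 * g 1 0 := by
    rw [← mul_00, ← mul_00, hg]
  have e1 : g 0 0 * z 0 1 + g 0 1 * z 1 1 = z 0 0 * g 0 1 + z 0 1 * g 1 1 := by
    rw [← mul_01, ← mul_01, hg]
  have e2 : g 1 0 * z 0 0 + g 1 1 * z 1 0 = z 1 0 * g 0 0 + z 1 1 * g 1 0 := by
    rw [← mul_10, ← mul_10, hg]
  by_cases hB : z 0 1 = 0
  · by_cases hC : z 1 0 = 0
    · have hD : z 0 0 - z 1 1 ≠ 0 := by
        intro h
        exact nonscalar ht ⟨hB, hC, sub_eq_zero.mp h⟩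
      have x0 : g 0 1 = 0 := by
        have : g 0 1 * (z 0 0 - z 1 1) = 0 := by
          rw [hB] at e1
          linear_combination -e1
        exact (mul_eq_zero.mp this).resolve_right hD
      have y0 : g 1 0 = 0 := by
        have : g 1 0 * (z 0 0 - z 1 1) = 0 := by
          rw [hC] at e2
          linear_combination e2
        exact (mul_eq_zero.mp this).resolve_right hD
      refine ⟨g 0 0 - (g 0 0 - g 1 1) / (z 0 0 - z 1 1) * z 0 0,
        (g 0 0 - g 1 1) / (z 0 0 - z 1 1), by ring, by rw [x0, hB, mul_zero],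
        by rw [y0, hC, mul_zero], ?_⟩
      field_simp
      ring
    · have x0 : g 0 1 = 0 := by
        have : g 0 1 * z 1 0 = 0 := by
          rw [hB] at e0
          linear_combination e0
        exact (mul_eq_zero.mp this).resolve_right hC
      refine ⟨g 0 0 - g 1 0 / z 1 0 * z 0 0, g 1 0 / z 1 0, by ring, by rw [x0, hB, mul_zero],
        by field_simp, ?_⟩
      field_simp
      linear_combination e2
  · refine ⟨g 0 0 - g 0 1 / z 0 1 * z 0 0, g 0 1 / z 0 1, by ring, by field_simp, ?_, ?_⟩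
    · field_simp
      linear_combination -e0
    · field_simp
      linear_combination -e1

theorem comb_unique {z g : SpecialLinearGroup (Fin 2) K} (ht : t2 z ^ 2 ≠ 4) {a b a' b' : K}
    (h : IsComb z g a b) (h' : IsComb z g a' b') : a = a' ∧ b = b' := by
  obtain ⟨h0, h1, h2, h3⟩ := h
  obtain ⟨h0', h1', h2', h3'⟩ := h'
  have hb : b = b' := by
    by_contra hne
    have hne' : b - b' ≠ 0 := sub_ne_zero.mpr hne
    apply nonscalar ht
    refine ⟨?_, ?_, ?_⟩
    · have : (b - b') * z 0 1 = 0 := by linear_combination h1' - h1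
      exact (mul_eq_zero.mp this).resolve_left hne'
    · have : (b - b') * z 1 0 = 0 := by linear_combination h2' - h2
      exact (mul_eq_zero.mp this).resolve_left hne'
    · have : (b - b') * (z 0 0 - z 1 1) = 0 := by linear_combination h0' - h0 - h3' + h3
      exact sub_eq_zero.mp ((mul_eq_zero.mp this).resolve_left hne')
  subst hb
  exact ⟨by linear_combination h0' - h0, rfl⟩

theorem comb_one (z : SpecialLinearGroup (Fin 2) K) : IsComb z 1 1 0 := by
  refine ⟨?_, ?_, ?_, ?_⟩ <;> simp

theorem comb_mul {z g h : SpecialLinearGroup (Fin 2) K} {a b a' b' : K}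
    (hg : IsComb z g a b) (hh : IsComb z h a' b') :
    IsComb z (g * h) (a * a' - b * b') (a * b' + a' * b + t2 z * (b * b')) := by
  obtain ⟨h0, h1, h2, h3⟩ := hg
  obtain ⟨h0', h1', h2', h3'⟩ := hh
  have hd := det_two z
  refine ⟨?_, ?_, ?_, ?_⟩
  · rw [mul_00, h0, h1, h0', h2', t2]
    linear_combination (-b * b') * hd
  · rw [mul_01, h0, h1, h1', h3', t2]
    ring
  · rw [mul_10, h2, h3, h0', h2', t2]
    ring
  · rw [mul_11, h2, h3, h1', h3', t2]
    linear_combination (-b * b') * hd

theorem comb_det {z g : SpecialLinearGroup (Fin 2) K} {a b : K} (hg : IsComb z g a b) :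
    a ^ 2 + t2 z * (a * b) + b ^ 2 = 1 := by
  obtain ⟨h0, h1, h2, h3⟩ := hg
  have hd := det_two z
  have hg := det_two g
  rw [h0, h1, h2, h3] at hg
  rw [t2]
  linear_combination hg - b ^ 2 * hd

/-- The centraliser of a regular semisimple element of `SL(2, K)` is cyclic. -/
theorem cyclic_centralizer [Finite K] {z : SpecialLinearGroup (Fin 2) K} (ht : t2 z ^ 2 ≠ 4) :
    IsCyclic (centralizer {z}) := by
  let L := AlgebraicClosure K
  let i : K →+* L := algebraMap K L
  obtain ⟨lam, hlam⟩ : ∃ x : L, x ^ 2 - i (t2 z) * x + 1 = 0 := by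
    have hdeg : (Polynomial.X ^ 2 - Polynomial.C (i (t2 z)) * Polynomial.X + 1 :
        Polynomial L).degree ≠ 0 := by
      have : (Polynomial.X ^ 2 - Polynomial.C (i (t2 z)) * Polynomial.X + 1 :
        Polynomial L) = Polynomial.C 1 * Polynomial.X ^ 2 +
          Polynomial.C (-i (t2 z)) * Polynomial.X + Polynomial.C 1 := by
        rw [Polynomial.C_1, Polynomial.C_neg]; ring
      rw [this, Polynomial.degree_quadratic one_ne_zero]
      decide
    obtain ⟨x, hx⟩ := IsAlgClosed.exists_root _ hdeg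
    refine ⟨x, ?_⟩
    simpa [Polynomial.IsRoot] using hx
  have hex : ∀ g : centralizer {z}, ∃ a b, IsComb z (g : SpecialLinearGroup (Fin 2) K) a b := by
    intro g
    exact exists_comb ht (mem_centralizer_singleton_iff.mp g.2)
  choose α β hαβ using hex
  let χ : centralizer {z} →* L :=
    { toFun := fun g => i (α g) + i (β g) * lam
      map_one' := by
        obtain ⟨h1, h2⟩ := comb_unique ht (hαβ 1) (comb_one z)
        rw [h1, h2, map_one, map_zero, zero_mul, add_zero]
      map_mul' := by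
        intro g h
        obtain ⟨h1, h2⟩ := comb_unique ht (hαβ (g * h)) (comb_mul (hαβ g) (hαβ h))
        rw [h1, h2]
        simp only [map_sub, map_add, map_mul]
        linear_combination (-(i (β g) * i (β h))) * hlam }
  have hinj : Function.Injective χ := by
    rw [injective_iff_map_eq_one]
    intro g hg
    have h1 : i (α g) + i (β g) * lam = 1 := hg
    have h2 := congrArg i (comb_det (hαβ g))
    simp only [map_add, map_mul, map_pow, map_one] at h2
    -- the conjugate
    set lam' := i (t2 z) - lam with hl'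
    have hprod : lam * lam' = 1 := by rw [hl']; linear_combination -hlam
    have h3 : (i (α g) + i (β g) * lam) * (i (α g) + i (β g) * lam') = 1 := by
      have e : lam' = i (t2 z) - lam := hl'
      linear_combination h2 + (i (β g)) ^ 2 * hprod + i (α g) * i (β g) * e
    rw [h1, one_mul] at h3
    have h4 : i (β g) * (lam - lam') = 0 := by linear_combination h1 - h3
    have h5 : lam - lam' ≠ 0 := by
      intro h0
      apply ht
      apply i.injective
      have e : lam' = i (t2 z) - lam := hl'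
      simp only [map_pow, map_ofNat]
      have h6 : i (t2 z) = 2 * lam := by linear_combination -h0 - e
      rw [h6]
      linear_combination 4 * hprod + 4 * lam * h0
    have h6 : i (β g) = 0 := (mul_eq_zero.mp h4).resolve_right h5
    have h7 : β g = 0 := i.injective (by rw [h6, map_zero])
    have h8 : α g = 1 := by
      apply i.injective
      rw [map_one]
      rw [h6, zero_mul, add_zero] at h1
      exact h1
    obtain ⟨e0, e1, e2, e3⟩ := hαβ g
    obtain ⟨f0, f1, f2, f3⟩ := comb_one z
    rw [h7] at e0 e1 e2 e3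
    rw [h8] at e0 e3
    apply Subtype.ext
    apply ext2
    · rw [e0]; exact f0.symm
    · rw [e1]; exact f1.symm
    · rw [e2]; exact f2.symm
    · rw [e3]; exact f3.symm
  have : Finite (SpecialLinearGroup (Fin 2) K) := inferInstance
  exact isCyclic_of_injective_ringHom χ hinj

end Vale.Agent.P180.R2.H589.Sch
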