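import Mathlib.GroupTheory.Transfer
import Mathlib.GroupTheory.Abelianization.Defs
import Mathlib.GroupTheory.SpecificGroups.Cyclic
import Mathlib.GroupTheory.Sylow

/-!
P180: central extensions: transfer, `p`-elements in central extensions with kernel of order prime
to `p`.
-/

set_option linter.all false

namespace Vale.Agent.P180.R2.H589.Sch

open Subgroup

section Transfer

variable {E : Type*} [Group E] [Finite E] {l : ℕ} [Fact l.Prime]

/-- A central `l`-element of a perfect group lies in the commutator subgroup of every subgroup of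
index prime to `l` which contains it. -/
theorem mem_commutator_of_central (hperf : commutator E = ⊤) {H : Subgroup E}
    (hH : ¬ l ∣ H.index) {a : E} (hac : a ∈ center E) (haH : a ∈ H) (hal : ∃ n, a ^ l ^ n = 1) :
    a ∈ ⁅H, H⁆ := by
  have hzc : ∀ g, g * a = a * g := mem_center_iff.mp hac
  have key : ∀ (k : ℕ) (g₀ : E), g₀⁻¹ * a ^ k * g₀ ∈ H → g₀⁻¹ * a ^ k * g₀ = a ^ k := by
    intro k g₀ _
    have h1 : g₀ * a ^ k = a ^ k * g₀ := (Commute.pow_right (hzc g₀) k)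
    rw [mul_assoc, ← h1, inv_mul_cancel_left]
  have h1 := MonoidHom.transfer_eq_pow (Abelianization.of (G := H)) a key
  have h2 : commutator E ≤ (MonoidHom.transfer (Abelianization.of (G := H))).ker := by
    rw [commutator_def, commutator_le]
    intro x _ y _
    rw [MonoidHom.mem_ker, commutatorElement_def, map_mul, map_mul, map_mul, map_inv, map_inv,
      mul_comm (MonoidHom.transfer _ x), mul_inv_cancel_right, mul_inv_cancel]
  have h3 : MonoidHom.transfer (Abelianization.of (G := H)) a = 1 := by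
    have : a ∈ commutator E := by rw [hperf]; exact mem_top a
    exact MonoidHom.mem_ker.mp (h2 this)
  have h4 : (Abelianization.of (⟨a, haH⟩ : H)) ^ H.index = 1 := by
    rw [← map_pow, ← h3, h1]
    congr 1
  obtain ⟨n, hn⟩ := hal
  have h5 : (Abelianization.of (⟨a, haH⟩ : H)) ^ l ^ n = 1 := by
    rw [← map_pow]
    have : (⟨a, haH⟩ : H) ^ l ^ n = 1 := Subtype.ext hn
    rw [this, map_one]
  have h6 := Nat.dvd_gcd (orderOf_dvd_of_pow_eq_one h5) (orderOf_dvd_of_pow_eq_one h4)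
  have h7 : Nat.Coprime (l ^ n) H.index := by
    apply Nat.Coprime.pow_left
    rw [(Fact.out : l.Prime).coprime_iff_not_dvd]
    exact hH
  rw [h7] at h6
  have h8 : Abelianization.of (⟨a, haH⟩ : H) = 1 :=
    orderOf_eq_one_iff.mp (Nat.dvd_one.mp h6)
  have h9 : (⟨a, haH⟩ : H) ∈ commutator H := by
    rw [← Abelianization.ker_of]
    exact h8
  rw [← Subgroup.map_subtype_commutator]
  exact ⟨⟨a, haH⟩, h9, rfl⟩

end Transfer

section Dih

variable {E : Type*} [Group E]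

/-- Commutators in a group with an abelian subgroup of index two. -/
theorem commutator_index_two {C S : Subgroup E} {y : E}
    (hC : ∀ a ∈ C, ∀ b ∈ C, a * b = b * a) (hyC : ∀ c ∈ C, y * c * y⁻¹ ∈ C)
    (hS : ∀ s ∈ S, s ∈ C ∨ ∃ c ∈ C, s = c * y) {a : E} (ha : a ∈ ⁅S, S⁆) :
    ∃ c ∈ C, a = y * c * y⁻¹ * c⁻¹ := by
  let D : Subgroup E :=
    { carrier := {x | ∃ c ∈ C, x = y * c * y⁻¹ * c⁻¹}
      one_mem' := ⟨1, C.one_mem, by group⟩
      mul_mem' := by
        rintro _ _ ⟨c, hc, rfl⟩ ⟨d, hd, rfl⟩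
        refine ⟨c * d, C.mul_mem hc hd, ?_⟩
        have h1 := hC c⁻¹ (C.inv_mem hc) (y * d * y⁻¹ * d⁻¹)
          (C.mul_mem (hyC d hd) (C.inv_mem hd))
        calc y * c * y⁻¹ * c⁻¹ * (y * d * y⁻¹ * d⁻¹)
            = y * c * y⁻¹ * (c⁻¹ * (y * d * y⁻¹ * d⁻¹)) := by group
          _ = y * c * y⁻¹ * ((y * d * y⁻¹ * d⁻¹) * c⁻¹) := by rw [h1]
          _ = y * (c * d) * y⁻¹ * (c * d)⁻¹ := by group
      inv_mem' := by
        rintro _ ⟨c, hc, rfl⟩
        refine ⟨c⁻¹, C.inv_mem hc, ?_⟩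
        have h1 := hC c hc (y * c⁻¹ * y⁻¹) (hyC _ (C.inv_mem hc))
        calc (y * c * y⁻¹ * c⁻¹)⁻¹ = c * (y * c⁻¹ * y⁻¹) := by group
          _ = (y * c⁻¹ * y⁻¹) * c := h1
          _ = y * c⁻¹ * y⁻¹ * c⁻¹⁻¹ := by group }
  have hD : ⁅S, S⁆ ≤ D := by
    rw [commutator_le]
    intro s hs t ht
    rw [commutatorElement_def]
    rcases hS s hs with hs | ⟨c, hc, rfl⟩ <;> rcases hS t ht with ht | ⟨d, hd, rfl⟩
    · have h1 := hC s hs t ht
      rw [h1]
      exact ⟨1, C.one_mem, by group⟩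
    · refine ⟨s⁻¹, C.inv_mem hs, ?_⟩
      have h1 := hC (s * d) (C.mul_mem hs hd) (y * s⁻¹ * y⁻¹) (hyC _ (C.inv_mem hs))
      have h2 := hC s hs d hd
      calc s * (d * y) * s⁻¹ * (d * y)⁻¹ = (s * d) * (y * s⁻¹ * y⁻¹) * d⁻¹ := by group
        _ = (y * s⁻¹ * y⁻¹) * (s * d) * d⁻¹ := by rw [h1]
        _ = y * s⁻¹ * y⁻¹ * s⁻¹⁻¹ := by group
    · refine ⟨t, ht, ?_⟩
      have h1 := hC c hc (y * t * y⁻¹) (hyC _ ht)
      have h2 := hC c⁻¹ (C.inv_mem hc) t⁻¹ (C.inv_mem ht)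
      calc c * y * t * (c * y)⁻¹ * t⁻¹ = (c * (y * t * y⁻¹)) * (c⁻¹ * t⁻¹) := by group
        _ = ((y * t * y⁻¹) * c) * (c⁻¹ * t⁻¹) := by rw [h1]
        _ = y * t * y⁻¹ * t⁻¹ := by group
    · refine ⟨d * c⁻¹, C.mul_mem hd (C.inv_mem hc), ?_⟩
      have h1 := hC c hc (y * (d * c⁻¹) * y⁻¹) (hyC _ (C.mul_mem hd (C.inv_mem hc)))
      have h2 := hC c hc d⁻¹ (C.inv_mem hd)
      calc c * y * (d * y) * (c * y)⁻¹ * (d * y)⁻¹
          = (c * (y * (d * c⁻¹) * y⁻¹)) * d⁻¹ := by group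
        _ = ((y * (d * c⁻¹) * y⁻¹) * c) * d⁻¹ := by rw [h1]
        _ = y * (d * c⁻¹) * y⁻¹ * (d * c⁻¹)⁻¹ := by group
  exact hD ha

end Dih

section Pel

variable {E G : Type*} [Group E] [Group G] {p : ℕ}

/-- `x` is a `p`-element. -/
def Pel (p : ℕ) {E : Type*} [Group E] (x : E) : Prop := ∃ n : ℕ, x ^ p ^ n = 1

theorem Pel.map (f : E →* G) {x : E} (h : Pel p x) : Pel p (f x) := by
  obtain ⟨n, hn⟩ := h
  exact ⟨n, by rw [← map_pow, hn, map_one]⟩

theorem Pel.inv {x : E} (h : Pel p x) : Pel p x⁻¹ := by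
  obtain ⟨n, hn⟩ := h
  exact ⟨n, by rw [inv_pow, hn, inv_one]⟩

theorem Pel.conj {x : E} (h : Pel p x) (g : E) : Pel p (g * x * g⁻¹) := by
  obtain ⟨n, hn⟩ := h
  exact ⟨n, by rw [conj_pow, hn, mul_one, mul_inv_cancel]⟩

theorem pel_one : Pel p (1 : E) := ⟨0, one_pow _⟩

variable [Finite E] [Fact p.Prime]

theorem eq_one_of_pel_of_mem {A : Subgroup E} (hA : ¬ p ∣ Nat.card A) {a : E} (ha : a ∈ A)
    (h : Pel p a) : a = 1 := by
  obtain ⟨n, hn⟩ := h
  have h1 : (⟨a, ha⟩ : A) ^ p ^ n = 1 := Subtype.ext hn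
  have h2 := orderOf_dvd_of_pow_eq_one h1
  have h3 := orderOf_dvd_natCard (⟨a, ha⟩ : A)
  have h4 : Nat.Coprime (p ^ n) (Nat.card A) := by
    apply Nat.Coprime.pow_left
    rw [(Fact.out : p.Prime).coprime_iff_not_dvd]
    exact hA
  have h5 := Nat.dvd_gcd h2 h3
  rw [h4] at h5
  have h6 := orderOf_eq_one_iff.mp (Nat.dvd_one.mp h5)
  exact congrArg Subtype.val h6

/-- In an extension of a `p`-group by a central subgroup of order prime to `p` the `p`-elements form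
a subgroup, which covers the `p`-group. -/
theorem exists_pel_subgroup (f : E →* G) (hf : Function.Surjective f) (hG : IsPGroup p G)
    (hk : f.ker ≤ center E) (hp : ¬ p ∣ Nat.card f.ker) :
    ∃ P : Subgroup E, (∀ x, x ∈ P ↔ Pel p x) ∧ P.map f = ⊤ := by
  obtain ⟨P⟩ : Nonempty (Sylow p E) := inferInstance
  have hmap : (P : Subgroup E).map f = ⊤ := by
    have hfin : Finite G := Finite.of_surjective f hf
    have h1 : ((P : Subgroup E).map f).index ∣ (P : Subgroup E).index :=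
      Subgroup.index_map_dvd _ hf
    obtain ⟨m, hm⟩ := hG.index ((P : Subgroup E).map f)
    rcases Nat.eq_zero_or_pos m with h0 | h0
    · rw [h0, pow_zero] at hm
      exact Subgroup.index_eq_one.mp hm
    · exfalso
      rw [hm] at h1
      exact P.not_dvd_index ((dvd_pow_self p h0.ne').trans h1)
  refine ⟨P, fun x => ⟨fun hx => ?_, fun hx => ?_⟩, hmap⟩
  · obtain ⟨n, hn⟩ := P.2 ⟨x, hx⟩
    exact ⟨n, congrArg Subtype.val hn⟩
  · have h1 : f x ∈ (P : Subgroup E).map f := by rw [hmap]; exact mem_top _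
    obtain ⟨s, hs, hsx⟩ := h1
    have h2 : s⁻¹ * x ∈ f.ker := by
      rw [MonoidHom.mem_ker, map_mul, map_inv, hsx, inv_mul_cancel]
    have h3 : s⁻¹ * x = 1 := by
      refine eq_one_of_pel_of_mem hp h2 ?_
      obtain ⟨n, hn⟩ := hx
      obtain ⟨m, hm⟩ := P.2 ⟨s, hs⟩
      have hm : s ^ p ^ m = 1 := congrArg Subtype.val hm
      have hcomm : Commute s⁻¹ x := by
        have h4 := mem_center_iff.mp (hk h2) s⁻¹
        have h5 : s⁻¹ * (s⁻¹ * x) = s⁻¹ * (x * s⁻¹) := by rw [h4]; group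
        exact mul_left_cancel h5
      refine ⟨n + m, ?_⟩
      rw [hcomm.mul_pow, inv_pow]
      have e1 : s ^ p ^ (n + m) = 1 := by
        rw [pow_add, mul_comm, pow_mul, hm, one_pow]
      have e2 : x ^ p ^ (n + m) = 1 := by
        rw [pow_add, pow_mul, hn, one_pow]
      rw [e1, e2, inv_one, mul_one]
    have h4 : x = s := (inv_mul_eq_one.mp h3).symm
    rw [h4]
    exact hs

variable {f : E →* G}

theorem pel_mul (hk : f.ker ≤ center E) (hp : ¬ p ∣ Nat.card f.ker) {X : Subgroup G}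
    (hX : IsPGroup p X) {x y : E} (hx : Pel p x) (hy : Pel p y) (hxX : f x ∈ X) (hyX : f y ∈ X) :
    Pel p (x * y) := by
  let H : Subgroup E := X.comap f
  let g : H →* X := f.subgroupComap X
  have hrange : g.range.map X.subtype ≤ X := by
    rintro _ ⟨z, _, rfl⟩
    exact z.2
  let g' : H →* g.range := g.rangeRestrict
  have hg' : Function.Surjective g' := g.rangeRestrict_surjective
  have hR : IsPGroup p g.range := hX.to_subgroup _
  have hker : ∀ z : H, g' z = 1 → f z = 1 := by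
    intro z hz
    exact congrArg (fun w : g.range => ((w : X) : G)) hz
  have hkc : g'.ker ≤ center H := by
    intro z hz
    rw [mem_center_iff]
    intro w
    exact Subtype.ext (mem_center_iff.mp (hk (hker z hz)) w)
  have hkp : ¬ p ∣ Nat.card g'.ker := by
    intro h
    apply hp
    refine h.trans (Subgroup.card_dvd_of_injective
      (({ toFun := fun z => ⟨((z : H) : E), hker z z.2⟩
          map_one' := rfl
          map_mul' := fun _ _ => rfl } : g'.ker →* f.ker)) ?_)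
    intro z w hzw
    exact Subtype.ext (Subtype.ext (congrArg (fun v : f.ker => (v : E)) hzw))
  obtain ⟨P, hP, -⟩ := exists_pel_subgroup g' hg' hR hkc hkp
  have conv : ∀ z : H, Pel p z ↔ Pel p (z : E) := by
    intro z
    constructor
    · rintro ⟨n, hn⟩
      exact ⟨n, congrArg Subtype.val hn⟩
    · rintro ⟨n, hn⟩
      exact ⟨n, Subtype.ext hn⟩
  have h1 : (⟨x, hxX⟩ : H) ∈ P := (hP _).2 ((conv _).2 hx)
  have h2 : (⟨y, hyX⟩ : H) ∈ P := (hP _).2 ((conv _).2 hy)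
  exact (conv _).1 ((hP _).1 (P.mul_mem h1 h2))

theorem isPGroup_zpowers_of_pel {x : G} (h : Pel p x) : IsPGroup p (zpowers x) := by
  obtain ⟨n, hn⟩ := h
  rintro ⟨_, m, rfl⟩
  refine ⟨n, Subtype.ext ?_⟩
  change (x ^ m) ^ p ^ n = 1
  rw [← zpow_natCast, ← zpow_mul, mul_comm, zpow_mul, zpow_natCast, hn, one_zpow]

theorem pel_unique (hk : f.ker ≤ center E) (hp : ¬ p ∣ Nat.card f.ker) {x y : E}
    (hx : Pel p x) (hy : Pel p y) (hxy : f x = f y) : x = y := by
  have h1 : Pel p (x⁻¹ * y) := by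
    refine pel_mul hk hp (isPGroup_zpowers_of_pel (hx.map f)) hx.inv hy ?_ ?_
    · rw [map_inv]
      exact Subgroup.inv_mem _ (mem_zpowers _)
    · rw [← hxy]
      exact mem_zpowers _
  have h2 : x⁻¹ * y ∈ f.ker := by
    rw [MonoidHom.mem_ker, map_mul, map_inv, hxy, inv_mul_cancel]
  exact inv_mul_eq_one.mp (eq_one_of_pel_of_mem hp h2 h1)

theorem exists_pel (hp : ¬ p ∣ Nat.card f.ker) {g : G}
    (hg : Pel p g) (hy : ∃ y, f y = g) : ∃ x, Pel p x ∧ f x = g := by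
  obtain ⟨y, rfl⟩ := hy
  -- the `p`-part of `y`
  obtain ⟨n, hn⟩ := hg
  have h1 : y ^ p ^ n ∈ f.ker := by rw [MonoidHom.mem_ker, map_pow, hn]
  set r := Nat.card f.ker with hr
  have h2 : (y ^ p ^ n) ^ r = 1 := by
    have h3 : (⟨y ^ p ^ n, h1⟩ : f.ker) ^ Nat.card f.ker = 1 := pow_card_eq_one'
    exact congrArg Subtype.val h3
  have hcop : Nat.Coprime r (p ^ n) := by
    apply Nat.Coprime.pow_right
    rw [Nat.coprime_comm, (Fact.out : p.Prime).coprime_iff_not_dvd]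
    exact hp
  -- choose `s` with `r * s ≡ 1 mod p ^ n`
  obtain ⟨s, hs⟩ : ∃ s : ℕ, r * s ≡ 1 [MOD p ^ n] := by
    rcases Nat.lt_or_ge 1 (p ^ n) with h | h
    · obtain ⟨s, -, hs⟩ := Nat.exists_mul_mod_eq_one_of_coprime hcop h
      exact ⟨s, by rw [Nat.ModEq, hs, Nat.mod_eq_of_lt h]⟩
    · have h0 : p ^ n = 1 := le_antisymm h (Nat.pos_of_ne_zero
        (pow_ne_zero n (Fact.out : p.Prime).ne_zero))
      exact ⟨0, by rw [h0]; exact Nat.modEq_one⟩
  refine ⟨y ^ (r * s), ⟨n, ?_⟩, ?_⟩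
  · rw [← pow_mul, mul_comm (r * s), pow_mul, pow_mul, h2, one_pow]
  · rw [map_pow]
    have h4 : (f y) ^ (r * s) = (f y) ^ 1 := by
      rw [pow_eq_pow_iff_modEq]
      exact hs.of_dvd (orderOf_dvd_of_pow_eq_one hn)
    rw [h4, pow_one]

end Pel

end Vale.Agent.P180.R2.H589.Sch
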