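import Vale.Agent.P180.R2.H589.Sch.Tv

/-!
P180: a central extension by a group of order prime to the characteristic of a group which contains
all transvections is trivial if it is trivial on the stabiliser of a vector (dimension at least
three): the lifts of the transvections give a trivial covering of the set of nonzero vectors.
-/

set_option linter.all false

namespace Vale.Agent.P180.R2.H589.Sch

open Subgroup Module

variable {K V E : Type*} [Field K] [AddCommGroup V] [Module K V] [Group E]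

theorem exists_subgroup_of (Q : E → Prop) (h1 : Q 1) (h2 : ∀ t t', Q t → Q t' → Q (t * t'))
    (h3 : ∀ t, Q t → Q t⁻¹) : ∃ F : Subgroup E, ∀ t, t ∈ F ↔ Q t :=
  ⟨{ carrier := {t | Q t}
     one_mem' := h1
     mul_mem' := fun {t t'} ht ht' => h2 t t' ht ht'
     inv_mem' := fun {t} ht => h3 t ht }, fun t => Iff.rfl⟩

/-- The subgroup generated by the `p`-elements which fix `v`. -/
def Pv (f : E →* (V ≃ₗ[K] V)) (p : ℕ) (v : V) : Subgroup E :=
  closure {x | Pel p x ∧ f x v = v}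

/-- `u` is a `p`-element over a transvection which maps `v` to `w`. -/
def IsT (f : E →* (V ≃ₗ[K] V)) (p : ℕ) (u : E) (w v : V) : Prop :=
  Pel p u ∧ ∃ φ : Dual K V, φ v = 1 ∧ IsTv (f u) φ (w - v)

/-- The coset of `Pv v` which consists of the flat elements mapping `v` to `w`. -/
def Co (f : E →* (V ≃ₗ[K] V)) (p : ℕ) (w v : V) : Set E :=
  {t | ∃ u, IsT f p u w v ∧ u⁻¹ * t ∈ Pv f p v}

/-- Transport over a generic vector. -/
def Ro (f : E →* (V ≃ₗ[K] V)) (p : ℕ) (w v : V) : Set E :=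
  {t | ∃ y, y ∉ Submodule.span K {v, w} ∧ ∃ s ∈ Co f p w y, ∃ s' ∈ Co f p y v, t = s * s'}

section

variable {f : E →* (V ≃ₗ[K] V)} {p : ℕ}

theorem map_inv_eq {e : E} {v w : V} (h : f e v = w) : f e⁻¹ w = v := by
  rw [map_inv, ← h]
  exact (f e).symm_apply_apply v

theorem pv_fix {v : V} {x : E} (hx : x ∈ Pv f p v) : f x v = v := by
  induction hx using closure_induction with
  | mem x hx => exact hx.2
  | one => rw [map_one]; rfl
  | mul x y _ _ hx hy => rw [map_mul, LinearEquiv.mul_apply, hy, hx]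
  | inv x _ hx => exact map_inv_eq hx

theorem pv_conj {v : V} {x : E} (hx : x ∈ Pv f p v) (e : E) : e * x * e⁻¹ ∈ Pv f p (f e v) := by
  induction hx using closure_induction with
  | mem x hx =>
    refine subset_closure ⟨hx.1.conj e, ?_⟩
    rw [map_mul, map_mul, LinearEquiv.mul_apply, LinearEquiv.mul_apply, map_inv_eq rfl, hx.2]
  | one => rw [mul_one, mul_inv_cancel]; exact Subgroup.one_mem _
  | mul x y _ _ hx hy =>
    have : e * (x * y) * e⁻¹ = (e * x * e⁻¹) * (e * y * e⁻¹) := by group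
    rw [this]
    exact Subgroup.mul_mem _ hx hy
  | inv x _ hx =>
    have : e * x⁻¹ * e⁻¹ = (e * x * e⁻¹)⁻¹ := by group
    rw [this]
    exact Subgroup.inv_mem _ hx

theorem IsT.apply {u : E} {w v : V} (h : IsT f p u w v) : f u v = w := by
  obtain ⟨_, φ, h1, h2⟩ := h
  rw [h2.2, h1]
  module

theorem IsT.inv {u : E} {w v : V} (h : IsT f p u w v) : IsT f p u⁻¹ v w := by
  obtain ⟨h0, φ, h1, h2⟩ := h
  refine ⟨h0.inv, φ, ?_, ?_⟩
  · have h3 := h2.1
    rw [map_sub, h1, sub_eq_zero] at h3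
    exact h3
  · rw [map_inv]
    have h3 := h2.inv_a
    rw [neg_sub] at h3
    exact h3

theorem IsT.conj {u : E} {w v : V} (h : IsT f p u w v) (e : E) :
    IsT f p (e * u * e⁻¹) (f e w) (f e v) := by
  obtain ⟨h0, φ, h1, h2⟩ := h
  refine ⟨h0.conj e, φ ∘ₗ ((f e)⁻¹ : V ≃ₗ[K] V).toLinearMap, ?_, ?_⟩
  · rw [LinearMap.comp_apply, LinearEquiv.coe_toLinearMap]
    have : (f e)⁻¹ (f e v) = v := (f e).symm_apply_apply v
    rw [this, h1]
  · rw [map_mul, map_mul, map_inv, ← map_sub]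
    exact h2.conj (f e)

theorem co_conj {t : E} {w v : V} (h : t ∈ Co f p w v) (e : E) :
    e * t * e⁻¹ ∈ Co f p (f e w) (f e v) := by
  obtain ⟨u, hu, hq⟩ := h
  refine ⟨_, hu.conj e, ?_⟩
  have : (e * u * e⁻¹)⁻¹ * (e * t * e⁻¹) = e * (u⁻¹ * t) * e⁻¹ := by group
  rw [this]
  exact pv_conj hq e

theorem co_apply {t : E} {w v : V} (h : t ∈ Co f p w v) : f t v = w := by
  obtain ⟨u, hu, hq⟩ := h
  have h1 := pv_fix hq
  have h2 : t = u * (u⁻¹ * t) := by group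
  rw [h2, map_mul, LinearEquiv.mul_apply, h1, hu.apply]

theorem co_mul_right {t q : E} {w v : V} (h : t ∈ Co f p w v) (hq : q ∈ Pv f p v) :
    t * q ∈ Co f p w v := by
  obtain ⟨u, hu, h1⟩ := h
  refine ⟨u, hu, ?_⟩
  rw [← mul_assoc]
  exact Subgroup.mul_mem _ h1 hq

theorem co_inv {t : E} {w v : V} (h : t ∈ Co f p w v) : t⁻¹ ∈ Co f p v w := by
  obtain ⟨u, hu, hq⟩ := h
  refine ⟨u⁻¹, hu.inv, ?_⟩
  have h1 := pv_conj (Subgroup.inv_mem _ hq) u
  rw [hu.apply] at h1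
  have : u⁻¹⁻¹ * t⁻¹ = u * (u⁻¹ * t)⁻¹ * u⁻¹ := by group
  rw [this]
  exact h1

theorem ro_apply {t : E} {w v : V} (h : t ∈ Ro f p w v) : f t v = w := by
  obtain ⟨y, _, s, hs, s', hs', rfl⟩ := h
  rw [map_mul, LinearEquiv.mul_apply, co_apply hs', co_apply hs]

theorem ro_mul_right {t q : E} {w v : V} (h : t ∈ Ro f p w v) (hq : q ∈ Pv f p v) :
    t * q ∈ Ro f p w v := by
  obtain ⟨y, hy, s, hs, s', hs', rfl⟩ := h
  exact ⟨y, hy, s, hs, s' * q, co_mul_right hs' hq, by group⟩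

theorem span_pair_comm (v w : V) :
    Submodule.span K {v, w} = Submodule.span K ({w, v} : Set V) := by
  rw [Set.pair_comm]

theorem ro_inv {t : E} {w v : V} (h : t ∈ Ro f p w v) : t⁻¹ ∈ Ro f p v w := by
  obtain ⟨y, hy, s, hs, s', hs', rfl⟩ := h
  refine ⟨y, by rwa [span_pair_comm], _, co_inv hs', _, co_inv hs, by group⟩

theorem ro_conj {t : E} {w v : V} (h : t ∈ Ro f p w v) (e : E) :
    e * t * e⁻¹ ∈ Ro f p (f e w) (f e v) := by
  obtain ⟨y, hy, s, hs, s', hs', rfl⟩ := h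
  refine ⟨f e y, ?_, _, co_conj hs e, _, co_conj hs' e, by group⟩
  intro hcon
  apply hy
  rw [Submodule.mem_span_pair] at hcon ⊢
  obtain ⟨α, β, h1⟩ := hcon
  refine ⟨α, β, ?_⟩
  rw [← map_smul, ← map_smul, ← map_add] at h1
  exact (f e).injective h1

variable [Finite E] [Fact p.Prime] [CharP K p] (hk : f.ker ≤ center E)
  (hp : ¬ p ∣ Nat.card f.ker)

include hk hp

theorem isT_coset {u u' : E} {w v : V} (h : IsT f p u w v) (h' : IsT f p u' w v) :
    u⁻¹ * u' ∈ Pv f p v := by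
  refine subset_closure ⟨?_, ?_⟩
  · obtain ⟨h0, φ, h1, h2⟩ := h
    obtain ⟨h0', φ', h1', h2'⟩ := h'
    refine pel_mul hk hp (isPGroup_XC p (w - v)) h0.inv h0' ?_ ?_
    · rw [map_inv]
      exact Subgroup.inv_mem _ ⟨φ, h2⟩
    · exact ⟨φ', h2'⟩
  · rw [map_mul, LinearEquiv.mul_apply, h'.apply, map_inv_eq h.apply]

theorem co_spec {t u : E} {w v : V} (h : t ∈ Co f p w v) (hu : IsT f p u w v) :
    u⁻¹ * t ∈ Pv f p v := by
  obtain ⟨u', hu', hq⟩ := h
  have : u⁻¹ * t = (u⁻¹ * u') * (u'⁻¹ * t) := by group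
  rw [this]
  exact Subgroup.mul_mem _ (isT_coset hk hp hu hu') hq

theorem co_mul_inv {s r : E} {w y : V} (hs : s ∈ Co f p y w) (hr : r ∈ Co f p w y) :
    s * r ∈ Pv f p y := by
  obtain ⟨u, hu, hq⟩ := hs
  have h1 := co_spec hk hp (co_inv hr) hu
  have h2 := pv_conj (Subgroup.mul_mem _ hq (Subgroup.inv_mem _ h1)) u
  rw [hu.apply] at h2
  have : s * r = u * (u⁻¹ * s * (u⁻¹ * r⁻¹)⁻¹) * u⁻¹ := by group
  rw [this]
  exact h2

variable (hT : ∀ (e : V ≃ₗ[K] V) (φ : Dual K V) (a : V), IsTv e φ a → ∃ y, f y = e)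

include hT

theorem exists_lift_tv {φ : Dual K V} {a : V} (h : φ a = 0) :
    ∃ u : E, Pel p u ∧ IsTv (f u) φ a := by
  have h1 : IsTv (LinearEquiv.transvection h) φ a := ⟨h, fun x => LinearEquiv.transvection.apply h x⟩
  obtain ⟨u, hu, hfu⟩ := exists_pel (f := f) (p := p) hp ⟨1, by rw [pow_one]; exact h1.pow_char⟩
    (hT _ _ _ h1)
  exact ⟨u, hu, hfu ▸ h1⟩

theorem exists_isT {v w : V} (h : LinearIndependent K ![v, w]) : ∃ u, IsT f p u w v := by
  obtain ⟨φ, hφ⟩ := exists_form h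
  have h0 : φ v = 1 := by simpa using hφ 0
  have h1 : φ w = 1 := by simpa using hφ 1
  obtain ⟨u, hu, hu'⟩ := exists_lift_tv hk hp hT (φ := φ) (a := w - v)
    (by rw [map_sub, h0, h1, sub_self])
  exact ⟨u, hu, φ, h0, hu'⟩

theorem co_nonempty {v w : V} (h : LinearIndependent K ![v, w]) : ∃ t, t ∈ Co f p w v := by
  obtain ⟨u, hu⟩ := exists_isT hk hp hT h
  exact ⟨u, u, hu, by rw [inv_mul_cancel]; exact Subgroup.one_mem _⟩

theorem co_tri {t t' : E} {v w z : V} (h : LinearIndependent K ![z, v, w])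
    (ht : t ∈ Co f p z w) (ht' : t' ∈ Co f p w v) : t * t' ∈ Co f p z v := by
  obtain ⟨φ, hφ⟩ := exists_form h
  have h0 : φ z = 1 := by simpa using hφ 0
  have h1 : φ v = 1 := by simpa using hφ 1
  have h2 : φ w = 1 := by simpa using hφ 2
  obtain ⟨u₁, hu₁, hu₁'⟩ := exists_lift_tv hk hp hT (φ := φ) (a := w - v)
    (by rw [map_sub, h1, h2, sub_self])
  obtain ⟨u₂, hu₂, hu₂'⟩ := exists_lift_tv hk hp hT (φ := φ) (a := z - w)
    (by rw [map_sub, h0, h2, sub_self])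
  have hT1 : IsT f p u₁ w v := ⟨hu₁, φ, h1, hu₁'⟩
  have hT2 : IsT f p u₂ z w := ⟨hu₂, φ, h2, hu₂'⟩
  have hT3 : IsT f p (u₂ * u₁) z v := by
    refine ⟨pel_mul hk hp (isPGroup_XA p φ) hu₂ hu₁ ⟨_, hu₂'⟩ ⟨_, hu₁'⟩, φ, h1, ?_⟩
    have h3 := hu₂'.mul_a hu₁'
    rw [← map_mul] at h3
    have h4 : z - w + (w - v) = z - v := by abel
    rwa [h4] at h3
  refine ⟨_, hT3, ?_⟩
  have h3 := co_spec hk hp ht hT2
  have h4 := co_spec hk hp ht' hT1
  have h5 := pv_conj h3 u₁⁻¹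
  rw [map_inv_eq hT1.apply] at h5
  have : (u₂ * u₁)⁻¹ * (t * t') = (u₁⁻¹ * (u₂⁻¹ * t) * u₁⁻¹⁻¹) * (u₁⁻¹ * t') := by group
  rw [this]
  exact Subgroup.mul_mem _ h5 h4

variable [Finite K] [Module.Finite K V] (h3 : 3 ≤ finrank K V) (hq : 4 < Nat.card K)

include h3 hq

theorem co_change {v w y y' : V} (hv : v ≠ 0) (hw : w ≠ 0)
    (hy : y ∉ Submodule.span K ({v, w} : Set V)) (hy' : y' ∉ Submodule.span K ({v, w} : Set V))
    {s s' : E} (hs : s ∈ Co f p w y) (hs' : s' ∈ Co f p y v) :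
    ∃ r ∈ Co f p w y', ∃ r' ∈ Co f p y' v, s * s' = r * r' := by
  obtain ⟨x, hx⟩ := exists_generic h3 (ι := Fin 4) (by rw [Nat.card_fin]; exact hq)
    ![v, y, v, y'] ![y, w, y', w]
  have hx0 : x ∉ Submodule.span K ({v, y} : Set V) := by simpa using hx 0
  have hx1 : x ∉ Submodule.span K ({y, w} : Set V) := by simpa using hx 1
  have hx2 : x ∉ Submodule.span K ({v, y'} : Set V) := by simpa using hx 2
  have hx3 : x ∉ Submodule.span K ({y', w} : Set V) := by simpa using hx 3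
  -- independent pairs
  have ivy : LinearIndependent K ![v, y] := linInd_pair hv (notMem_left hy)
  have ivy' : LinearIndependent K ![v, y'] := linInd_pair hv (notMem_left hy')
  have iwy : LinearIndependent K ![w, y] := linInd_pair hw (notMem_right hy)
  have iwy' : LinearIndependent K ![w, y'] := linInd_pair hw (notMem_right hy')
  have ivx : LinearIndependent K ![v, x] := linInd_pair hv (notMem_left hx0)
  -- triples
  have t1 : LinearIndependent K ![x, v, y] := linInd_triple ivy hx0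
  have t2 : LinearIndependent K ![x, y, w] := linInd_triple (linInd_swap iwy) hx1
  have t3 : LinearIndependent K ![x, v, y'] := linInd_triple ivy' hx2
  have t4 : LinearIndependent K ![x, y', w] := linInd_triple (linInd_swap iwy') hx3
  obtain ⟨t, ht⟩ := co_nonempty hk hp hT ivx
  obtain ⟨r', hr'⟩ := co_nonempty hk hp hT ivy'
  -- `t ∈ C x v`, `r' ∈ C y' v`
  have c1 : s' * t⁻¹ ∈ Co f p y x :=
    co_tri hk hp hT (linInd_rot (linInd_rot t1)) hs' (co_inv ht)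
  have c2 : s * (s' * t⁻¹) ∈ Co f p w x :=
    co_tri hk hp hT (linInd_rot (linInd_rot t2)) hs c1
  have c3 : t * r'⁻¹ ∈ Co f p x y' :=
    co_tri hk hp hT (linInd_swap3 (linInd_rot (linInd_rot t3))) ht (co_inv hr')
  have c4 : s * (s' * t⁻¹) * (t * r'⁻¹) ∈ Co f p w y' :=
    co_tri hk hp hT (linInd_swap3 (linInd_rot t4)) c2 c3
  exact ⟨_, c4, r', hr', by group⟩

theorem ro_mul {v w z : V} (hv : v ≠ 0) (hw : w ≠ 0) (hz : z ≠ 0) {t t' : E}
    (ht : t ∈ Ro f p z w) (ht' : t' ∈ Ro f p w v) : t * t' ∈ Ro f p z v := by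
  obtain ⟨y, hy⟩ := exists_generic h3 (ι := Fin 3)
    (by rw [Nat.card_fin]; omega) ![w, v, v] ![z, w, z]
  have hy0 : y ∉ Submodule.span K ({w, z} : Set V) := by simpa using hy 0
  have hy1 : y ∉ Submodule.span K ({v, w} : Set V) := by simpa using hy 1
  have hy2 : y ∉ Submodule.span K ({v, z} : Set V) := by simpa using hy 2
  obtain ⟨y₁, hy₁, s, hs, s', hs', rfl⟩ := ht
  obtain ⟨y₂, hy₂, r, hr, r', hr', rfl⟩ := ht'
  obtain ⟨a, ha, a', ha', e1⟩ := co_change hk hp hT h3 hq hw hz hy₁ hy0 hs hs'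
  obtain ⟨b, hb, b', hb', e2⟩ := co_change hk hp hT h3 hq hv hw hy₂ hy1 hr hr'
  rw [e1, e2]
  refine ⟨y, hy2, a * (a' * b),
    co_mul_right ha (co_mul_inv hk hp ha' hb), b', hb', by group⟩

theorem ro_nonempty {v w : V} (hv : v ≠ 0) (hw : w ≠ 0) : ∃ t, t ∈ Ro f p w v := by
  obtain ⟨y, hy⟩ := exists_generic h3 (ι := Fin 1) (by rw [Nat.card_fin]; omega) ![v] ![w]
  have hy0 : y ∉ Submodule.span K ({v, w} : Set V) := by simpa using hy 0
  obtain ⟨s, hs⟩ := co_nonempty hk hp hT (linInd_swap (linInd_pair hw (notMem_right hy0)))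
  obtain ⟨s', hs'⟩ := co_nonempty hk hp hT (linInd_pair hv (notMem_left hy0))
  exact ⟨s * s', y, hy0, s, hs, s', hs', rfl⟩

omit hT h3 hq [Finite K] [Module.Finite K V] in
theorem ro_self {v : V} {t : E} (h : t ∈ Ro f p v v) : t ∈ Pv f p v := by
  obtain ⟨y, _, s, hs, s', hs', rfl⟩ := h
  exact co_mul_inv hk hp hs hs'

theorem ro_one {v : V} (hv : v ≠ 0) : (1 : E) ∈ Ro f p v v := by
  obtain ⟨t, ht⟩ := ro_nonempty hk hp hT h3 hq hv hv
  have := ro_mul hk hp hT h3 hq hv hv hv ht (ro_inv ht)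
  rwa [mul_inv_cancel] at this

theorem exists_flat {o : V} (ho : o ≠ 0) :
    ∃ F : Subgroup E, ∀ t, t ∈ F ↔ t ∈ Ro f p (f t o) o := by
  have hne : ∀ e : E, f e o ≠ 0 := fun e h => ho ((f e).map_eq_zero_iff.mp h)
  have h1 : (1 : E) ∈ Ro f p (f 1 o) o := by
    rw [map_one]
    exact ro_one hk hp hT h3 hq ho
  have h2 : ∀ t t' : E, t ∈ Ro f p (f t o) o → t' ∈ Ro f p (f t' o) o →
      t * t' ∈ Ro f p (f (t * t') o) o := by
    intro t t' ht ht'
    have h1 := ro_conj ht' t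
    rw [← LinearEquiv.mul_apply, ← map_mul] at h1
    have h2 := ro_mul hk hp hT h3 hq ho (hne t) (hne (t * t')) h1 ht
    rwa [inv_mul_cancel_right] at h2
  have h3 : ∀ t : E, t ∈ Ro f p (f t o) o → t⁻¹ ∈ Ro f p (f t⁻¹ o) o := by
    intro t ht
    have h1 := ro_conj (ro_inv ht) t⁻¹
    have h5 : f t⁻¹ (f t o) = o := map_inv_eq (f := f) (e := t) (v := o) (w := f t o) rfl
    rw [h5] at h1
    have h2 : t⁻¹ * t⁻¹ * t⁻¹⁻¹ = t⁻¹ := by rw [inv_inv, inv_mul_cancel_right]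
    rwa [h2] at h1
  exact exists_subgroup_of (fun t => t ∈ Ro f p (f t o) o) h1 h2 h3

/-- **The sheets.** -/
theorem sheets (hgen : closure {x : E | Pel p x} = ⊤) {o : V} (ho : o ≠ 0)
    (hst : ∀ x : E, f x o = o → ∃ q ∈ Pv f p o, ∃ a ∈ f.ker, x = q * a)
    (hst2 : ∀ x ∈ Pv f p o, f x = 1 → x = 1) : f.ker = ⊥ := by
  have hne : ∀ e : E, f e o ≠ 0 := fun e h => ho ((f e).map_eq_zero_iff.mp h)
  obtain ⟨F, hF⟩ := exists_flat hk hp hT h3 hq ho
  have hFk : ∀ t ∈ F, f t = 1 → t = 1 := by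
    intro t ht h1
    rw [hF, h1] at ht
    exact hst2 t (ro_self hk hp ht) h1
  have hFE : ∀ e : E, ∃ t ∈ F, ∃ a ∈ f.ker, e = t * a := by
    intro e
    obtain ⟨t, ht⟩ := ro_nonempty hk hp hT h3 hq ho (hne e)
    have h1 : f (t⁻¹ * e) o = o := by
      rw [map_mul, LinearEquiv.mul_apply]
      exact map_inv_eq (ro_apply ht)
    obtain ⟨q, hq, a, ha, h2⟩ := hst _ h1
    have h3 := ro_mul_right ht hq
    refine ⟨t * q, ?_, a, ha, ?_⟩
    · rw [hF, ro_apply h3]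
      exact h3
    · rw [mul_assoc, ← h2, mul_inv_cancel_left]
  have hFtop : F = ⊤ := by
    rw [eq_top_iff, ← hgen, closure_le]
    rintro x ⟨n, hn⟩
    obtain ⟨t, ht, a, ha, rfl⟩ := hFE x
    have hc : Commute t a := mem_center_iff.mp (hk ha) t
    rw [hc.mul_pow] at hn
    have h1 : t ^ p ^ n ∈ F := F.pow_mem ht _
    have h2 : t ^ p ^ n = (a ^ p ^ n)⁻¹ := eq_inv_of_mul_eq_one_left hn
    have h4 : t ^ p ^ n = 1 := by
      refine hFk _ h1 ?_
      rw [h2, map_inv, map_pow, MonoidHom.mem_ker.mp ha, one_pow, inv_one]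
    have h5 : a = 1 := by
      refine eq_one_of_pel_of_mem hp ha ⟨n, ?_⟩
      rw [h4, one_mul] at hn
      exact hn
    rw [h5, mul_one]
    exact ht
  rw [eq_bot_iff]
  intro x hx
  rw [mem_bot]
  exact hFk x (by rw [hFtop]; exact mem_top x) hx

end

end Vale.Agent.P180.R2.H589.Sch
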