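import Vale.Agent.P180.R2.H589.Sch.Gen
import Mathlib.LinearAlgebra.Transvection.Basic
import Mathlib.LinearAlgebra.FiniteDimensional.Lemmas
import Mathlib.FieldTheory.Finiteness

/-!
P180: groups which act on a vector space and cover all transvections.
-/

set_option linter.all false

namespace Vale.Agent.P180.R2.H589.Sch

open Subgroup Module

variable {K V E : Type*} [Field K] [AddCommGroup V] [Module K V] [Group E]

/-- `e` is the transvection `x ↦ x + φ x • a`. -/
def IsTv (e : V ≃ₗ[K] V) (φ : Dual K V) (a : V) : Prop := φ a = 0 ∧ ∀ x, e x = x + φ x • a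

theorem IsTv.mul_c {e e' : V ≃ₗ[K] V} {φ φ' : Dual K V} {a : V} (h : IsTv e φ a)
    (h' : IsTv e' φ' a) : IsTv (e * e') (φ + φ') a := by
  refine ⟨by rw [LinearMap.add_apply, h.1, h'.1, add_zero], fun x => ?_⟩
  rw [LinearEquiv.mul_apply, h.2, h'.2, map_add, map_smul, h.1, LinearMap.add_apply, smul_zero,
    add_zero]
  module

theorem IsTv.mul_a {e e' : V ≃ₗ[K] V} {φ : Dual K V} {a a' : V} (h : IsTv e φ a)
    (h' : IsTv e' φ a') : IsTv (e * e') φ (a + a') := by
  refine ⟨by rw [map_add, h.1, h'.1, add_zero], fun x => ?_⟩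
  rw [LinearEquiv.mul_apply, h.2, h'.2, map_add, map_smul, h'.1, smul_zero, add_zero]
  module

theorem isTv_one_c (a : V) : IsTv (1 : V ≃ₗ[K] V) 0 a := by
  refine ⟨rfl, fun x => ?_⟩
  rw [LinearMap.zero_apply, zero_smul, add_zero]
  rfl

theorem isTv_one_a (φ : Dual K V) : IsTv (1 : V ≃ₗ[K] V) φ 0 := by
  refine ⟨map_zero _, fun x => ?_⟩
  rw [smul_zero, add_zero]
  rfl

theorem IsTv.inv_a {e : V ≃ₗ[K] V} {φ : Dual K V} {a : V} (h : IsTv e φ a) :
    IsTv e⁻¹ φ (-a) := by
  refine ⟨by rw [map_neg, h.1, neg_zero], fun x => ?_⟩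
  apply e.injective
  have h1 : e (e⁻¹ x) = x := e.apply_symm_apply x
  rw [h1, h.2, map_add, map_smul, map_neg, h.1, neg_zero, smul_zero, add_zero]
  module

theorem IsTv.inv_c {e : V ≃ₗ[K] V} {φ : Dual K V} {a : V} (h : IsTv e φ a) :
    IsTv e⁻¹ (-φ) a := by
  refine ⟨by rw [LinearMap.neg_apply, h.1, neg_zero], fun x => ?_⟩
  rw [h.inv_a.2, LinearMap.neg_apply]
  module

theorem IsTv.conj {e : V ≃ₗ[K] V} {φ : Dual K V} {a : V} (h : IsTv e φ a) (g : V ≃ₗ[K] V) :
    IsTv (g * e * g⁻¹) (φ ∘ₗ (g⁻¹ : V ≃ₗ[K] V).toLinearMap) (g a) := by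
  have hg : ∀ x, g⁻¹ (g x) = x := g.symm_apply_apply
  have hg' : ∀ x, g (g⁻¹ x) = x := g.apply_symm_apply
  refine ⟨?_, fun x => ?_⟩
  · rw [LinearMap.comp_apply, LinearEquiv.coe_toLinearMap, hg, h.1]
  · rw [LinearEquiv.mul_apply, LinearEquiv.mul_apply, h.2, map_add, map_smul, hg']
    rfl

theorem IsTv.pow {e : V ≃ₗ[K] V} {φ : Dual K V} {a : V} (h : IsTv e φ a) (n : ℕ) :
    IsTv (e ^ n) φ ((n : K) • a) := by
  induction n with
  | zero =>
    rw [pow_zero, Nat.cast_zero, zero_smul]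
    exact isTv_one_a φ
  | succ n ih =>
    have h1 := ih.mul_a h
    rw [pow_succ]
    have h2 : ((n + 1 : ℕ) : K) • a = (n : K) • a + a := by
      push_cast
      module
    rw [h2]
    exact h1

theorem IsTv.pow_char {p : ℕ} [CharP K p] {e : V ≃ₗ[K] V} {φ : Dual K V} {a : V}
    (h : IsTv e φ a) : e ^ p = 1 := by
  have h1 := h.pow p
  rw [CharP.cast_eq_zero K p, zero_smul] at h1
  apply LinearEquiv.ext
  intro x
  rw [h1.2, smul_zero, add_zero]
  rfl

/-- Transvections with centre `a`. -/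
def XC (a : V) : Subgroup (V ≃ₗ[K] V) where
  carrier := {e | ∃ φ, IsTv e φ a}
  one_mem' := ⟨0, isTv_one_c a⟩
  mul_mem' := by
    rintro _ _ ⟨φ, h⟩ ⟨φ', h'⟩
    exact ⟨_, h.mul_c h'⟩
  inv_mem' := by
    rintro _ ⟨φ, h⟩
    exact ⟨_, h.inv_c⟩

/-- Transvections with axis `φ`. -/
def XA (φ : Dual K V) : Subgroup (V ≃ₗ[K] V) where
  carrier := {e | ∃ a, IsTv e φ a}
  one_mem' := ⟨0, isTv_one_a φ⟩
  mul_mem' := by
    rintro _ _ ⟨φ, h⟩ ⟨φ', h'⟩
    exact ⟨_, h.mul_a h'⟩
  inv_mem' := by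
    rintro _ ⟨φ, h⟩
    exact ⟨_, h.inv_a⟩

theorem isPGroup_XC (p : ℕ) [CharP K p] (a : V) : IsPGroup p (XC (K := K) a) := by
  rintro ⟨e, φ, h⟩
  exact ⟨1, Subtype.ext (by rw [pow_one]; exact h.pow_char)⟩

theorem isPGroup_XA (p : ℕ) [CharP K p] (φ : Dual K V) : IsPGroup p (XA φ) := by
  rintro ⟨e, a, h⟩
  exact ⟨1, Subtype.ext (by rw [pow_one]; exact h.pow_char)⟩

/-- A linear form which is `1` on given linearly independent vectors. -/
theorem exists_form {ι : Type*} {b : ι → V} (h : LinearIndependent K b) :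
    ∃ φ : Dual K V, ∀ i, φ (b i) = 1 := by
  let B := Basis.span h
  obtain ⟨g, hg⟩ := LinearMap.exists_extend (p := Submodule.span K (Set.range b))
    (B.constr K (fun _ => (1 : K)))
  refine ⟨g, fun i => ?_⟩
  have h1 : (B i : V) = b i := congrArg Subtype.val (Basis.span_apply h i)
  have h2 : g ((Submodule.span K (Set.range b)).subtype (B i)) = 1 := by
    have := LinearMap.congr_fun hg (B i)
    rw [LinearMap.comp_apply] at this
    rw [this, Basis.constr_basis]
  rw [← h1]
  exact h2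

/-- There are vectors outside few planes. -/
theorem exists_generic [Finite K] [Module.Finite K V] (h3 : 3 ≤ finrank K V) {ι : Type*}
    [Finite ι] (hι : Nat.card ι < Nat.card K) (a b : ι → V) :
    ∃ x, ∀ i, x ∉ Submodule.span K {a i, b i} := by
  by_contra hcon
  push Not at hcon
  have hsurj : Function.Surjective (fun t : ι × K × K => t.2.1 • a t.1 + t.2.2 • b t.1) := by
    intro x
    obtain ⟨i, hi⟩ := hcon x
    obtain ⟨α, β, h⟩ := Submodule.mem_span_pair.mp hi
    exact ⟨(i, α, β), h⟩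
  have h1 := Nat.card_le_card_of_surjective _ hsurj
  rw [Nat.card_prod, Nat.card_prod, Module.natCard_eq_pow_finrank (K := K)] at h1
  have h2 : Nat.card K ^ 3 ≤ Nat.card K ^ finrank K V :=
    Nat.pow_le_pow_right Nat.card_pos h3
  have h4 : Nat.card ι * (Nat.card K * Nat.card K) < Nat.card K * (Nat.card K * Nat.card K) :=
    Nat.mul_lt_mul_of_pos_right hι (Nat.mul_pos Nat.card_pos Nat.card_pos)
  have h5 : Nat.card K ^ 3 = Nat.card K * (Nat.card K * Nat.card K) := by ring
  omega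

theorem linInd_pair {v w : V} (hv : v ≠ 0) (hw : w ∉ Submodule.span K {v}) :
    LinearIndependent K ![v, w] := by
  rw [LinearIndependent.pair_iff' hv]
  intro a ha
  apply hw
  rw [← ha]
  exact Submodule.smul_mem _ _ (Submodule.mem_span_singleton_self v)

theorem linInd_triple {v w z : V} (h : LinearIndependent K ![v, w])
    (hz : z ∉ Submodule.span K {v, w}) : LinearIndependent K ![z, v, w] := by
  refine linearIndependent_finCons.mpr ⟨h, ?_⟩
  have : Set.range ![v, w] = {v, w} := by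
    simp [Set.pair_comm]
  rw [this]
  exact hz

theorem notMem_left {v w x : V} (h : x ∉ Submodule.span K ({v, w} : Set V)) :
    x ∉ Submodule.span K ({v} : Set V) := by
  intro h'
  apply h
  have h1 : ({v} : Set V) ⊆ {v, w} := fun z hz => Or.inl hz
  exact Submodule.span_mono h1 h'

theorem notMem_right {v w x : V} (h : x ∉ Submodule.span K ({v, w} : Set V)) :
    x ∉ Submodule.span K ({w} : Set V) := by
  intro h'
  apply h
  have h1 : ({w} : Set V) ⊆ {v, w} := fun z hz => Or.inr hz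
  exact Submodule.span_mono h1 h'

theorem ne_of_notMem {v w x : V} (h : x ∉ Submodule.span K ({v, w} : Set V)) : x ≠ 0 := by
  rintro rfl
  exact h (Submodule.zero_mem _)

theorem linInd_swap {v w : V} (h : LinearIndependent K ![v, w]) :
    LinearIndependent K ![w, v] := by
  rw [LinearIndependent.pair_symm_iff]
  exact h

theorem linInd_rot {a b c : V} (h : LinearIndependent K ![a, b, c]) :
    LinearIndependent K ![b, c, a] := by
  have h1 := h.comp ![1, 2, 0] (by decide)
  have h2 : ![a, b, c] ∘ ![1, 2, 0] = ![b, c, a] := by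
    funext i
    fin_cases i <;> rfl
  rwa [h2] at h1

theorem linInd_swap3 {a b c : V} (h : LinearIndependent K ![a, b, c]) :
    LinearIndependent K ![b, a, c] := by
  have h1 := h.comp ![1, 0, 2] (by decide)
  have h2 : ![a, b, c] ∘ ![1, 0, 2] = ![b, a, c] := by
    funext i
    fin_cases i <;> rfl
  rwa [h2] at h1

end Vale.Agent.P180.R2.H589.Sch
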